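import Vale.Agent.P211Z.Pull1
import Mathlib.Geometry.Manifold.Riemannian.Basic
import Mathlib.Topology.Covering.Basic

/-! A Riemannian covering of a compact manifold is complete. -/

set_option maxSynthPendingDepth 3
set_option linter.unusedSectionVars false

namespace Vale.Agent.P211Z

open scoped Manifold ContDiff Topology ENNReal
open Bundle Filter Set Manifold Metric

variable {E : Type} [NormedAddCommGroup E] [NormedSpace ℝ E] [FiniteDimensional ℝ E]
  {M : Type} [MetricSpace M] [ChartedSpace E M] [IsManifold 𝓘(ℝ, E) ∞ M]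
  [RiemannianBundle fun p : M => TangentSpace 𝓘(ℝ, E) p] [IsRiemannianManifold 𝓘(ℝ, E) M]
  {N : Type} [MetricSpace N] [ChartedSpace E N] [IsManifold 𝓘(ℝ, E) ∞ N]
  [RiemannianBundle fun p : N => TangentSpace 𝓘(ℝ, E) p] [IsRiemannianManifold 𝓘(ℝ, E) N]
  {φ : N → M}

theorem pathELength_comp (hφ : ContMDiff 𝓘(ℝ, E) 𝓘(ℝ, E) ∞ φ)
    (hi : ∀ (y : N) (v w : TangentSpace 𝓘(ℝ, E) y),
      inner ℝ (dm E φ y v) (dm E φ y w) = inner ℝ v w)
    {γ : ℝ → N} {a b : ℝ} (hγ : ContMDiffOn 𝓘(ℝ) 𝓘(ℝ, E) 1 γ (Icc a b)) :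
    pathELength 𝓘(ℝ, E) (φ ∘ γ) a b = pathELength 𝓘(ℝ, E) γ a b := by
  simp only [pathELength_eq_lintegral_mfderiv_Ioo]
  refine MeasureTheory.setLIntegral_congr_fun measurableSet_Ioo fun t ht => ?_
  have h1 : MDifferentiableAt 𝓘(ℝ) 𝓘(ℝ, E) γ t :=
    (hγ.contMDiffAt (Icc_mem_nhds ht.1 ht.2)).mdifferentiableAt one_ne_zero
  have h2 := mfderiv_comp_apply t (hφ.mdifferentiableAt (by simp)) h1 (1 : ℝ)
  have h3 : ∀ v : TangentSpace 𝓘(ℝ, E) (γ t), ‖dm E φ (γ t) v‖ₑ = ‖v‖ₑ := by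
    intro v
    rw [← ofReal_norm, ← ofReal_norm, norm_eq_sqrt_real_inner,
      norm_eq_sqrt_real_inner, hi]
  exact (congrArg (fun v : TangentSpace 𝓘(ℝ, E) (φ (γ t)) => ‖v‖ₑ) h2).trans (h3 _)

theorem dist_map_le (hφ : ContMDiff 𝓘(ℝ, E) 𝓘(ℝ, E) ∞ φ)
    (hi : ∀ (y : N) (v w : TangentSpace 𝓘(ℝ, E) y),
      inner ℝ (dm E φ y v) (dm E φ y w) = inner ℝ v w) (y z : N) :
    dist (φ y) (φ z) ≤ dist y z := by
  rw [← edist_le_ofReal dist_nonneg, ← edist_dist, IsRiemannianManifold.out (I := 𝓘(ℝ, E)),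
    IsRiemannianManifold.out (I := 𝓘(ℝ, E))]
  refine le_of_forall_gt fun r hr => ?_
  obtain ⟨γ, h0, h1, hγ, hl⟩ := exists_lt_of_riemannianEDist_lt hr
  refine lt_of_le_of_lt ?_ hl
  rw [← pathELength_comp hφ hi hγ]
  exact riemannianEDist_le_pathELength ((hφ.of_le (by simp)).comp_contMDiffOn hγ)
    (congrArg φ h0) (congrArg φ h1) zero_le_one

theorem isPreconnected_ball_riem (E : Type) [NormedAddCommGroup E] [NormedSpace ℝ E]
    [ChartedSpace E N] [RiemannianBundle fun p : N => TangentSpace 𝓘(ℝ, E) p]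
    [IsRiemannianManifold 𝓘(ℝ, E) N] (y : N) (r : ℝ) : IsPreconnected (ball y r) := by
  refine isPreconnected_of_forall y fun z hz => ?_
  have h1 : riemannianEDist 𝓘(ℝ, E) y z < ENNReal.ofReal r := by
    rw [← IsRiemannianManifold.out, edist_lt_ofReal, dist_comm]
    exact hz
  obtain ⟨γ, h0, h1, hγ, hl⟩ := exists_lt_of_riemannianEDist_lt h1
  refine ⟨γ '' Icc 0 1, ?_, ⟨0, left_mem_Icc.mpr zero_le_one, h0⟩,
    ⟨1, right_mem_Icc.mpr zero_le_one, h1⟩, isPreconnected_Icc.image γ hγ.continuousOn⟩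
  rintro _ ⟨t, ht, rfl⟩
  rw [mem_ball, dist_comm, ← edist_lt_ofReal, IsRiemannianManifold.out (I := 𝓘(ℝ, E))]
  refine lt_of_le_of_lt ?_ hl
  exact (riemannianEDist_le_pathELength (hγ.mono (Icc_subset_Icc_right ht.2)) h0 rfl ht.1).trans
    (pathELength_mono le_rfl ht.2)

theorem complete_of_covering {X Y : Type} [MetricSpace X] [MetricSpace Y] [CompactSpace X]
    {f : Y → X} (hf : IsCoveringMap f) (hl : ∀ y z, dist (f y) (f z) ≤ dist y z)
    (hb : ∀ (y : Y) (r : ℝ), IsPreconnected (ball y r)) : CompleteSpace Y := by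
  choose hd U hxU hU hU' H hH using hf
  obtain ⟨δ, hδ, hL⟩ := lebesgue_number_lemma_of_metric isCompact_univ hU
    (fun x _ => mem_iUnion.mpr ⟨x, hxU x⟩)
  have key : ∀ y : Y, ∃ K : Set Y, IsCompact K ∧ ball y (δ / 2) ⊆ K := by
    intro y
    obtain ⟨x, hx⟩ := hL (f y) (mem_univ _)
    have := hd x
    have hsub : ∀ z ∈ ball y (δ / 2), f z ∈ closedBall (f y) (δ / 2) := fun z hz =>
      (hl z y).trans (le_of_lt hz)
    have hcb : closedBall (f y) (δ / 2) ⊆ U x :=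
      (closedBall_subset_ball (by linarith)).trans hx
    have hyb : y ∈ ball y (δ / 2) := mem_ball_self (by linarith)
    let j : ball y (δ / 2) → f ⁻¹' U x := fun z => ⟨z, hcb (hsub z z.2)⟩
    have hj : Continuous j := continuous_subtype_val.subtype_mk _
    have : PreconnectedSpace (ball y (δ / 2)) := isPreconnected_iff_preconnectedSpace.mp (hb y _)
    have hc : ∀ z : ball y (δ / 2), (H x (j z)).2 = (H x (j ⟨y, hyb⟩)).2 := fun z =>
      (IsLocallyConstant.iff_continuous _).mpr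
        (continuous_snd.comp ((H x).continuous.comp hj)) |>.apply_eq_of_preconnectedSpace _ _
    let i : closedBall (f y) (δ / 2) → Y := fun w =>
      (H x).symm (⟨w, hcb w.2⟩, (H x (j ⟨y, hyb⟩)).2)
    have hi : Continuous i := continuous_subtype_val.comp ((H x).symm.continuous.comp
      ((continuous_subtype_val.subtype_mk _).prodMk continuous_const))
    have : CompactSpace (closedBall (f y) (δ / 2)) :=
      isCompact_iff_compactSpace.mp isClosed_closedBall.isCompact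
    refine ⟨range i, isCompact_range hi, fun z hz => ⟨⟨f z, hsub z hz⟩, ?_⟩⟩
    have h1 : (H x) (j ⟨z, hz⟩) = (⟨f z, hcb (hsub z hz)⟩, (H x (j ⟨y, hyb⟩)).2) :=
      Prod.ext (Subtype.ext (hH x _)) (hc ⟨z, hz⟩)
    change ((H x).symm (⟨f z, hcb (hsub z hz)⟩, (H x (j ⟨y, hyb⟩)).2) : Y) = z
    rw [← h1, Homeomorph.symm_apply_apply]
  refine Metric.complete_of_cauchySeq_tendsto fun u hu => ?_
  obtain ⟨n, hn⟩ := Metric.cauchySeq_iff'.mp hu (δ / 2) (by linarith)
  obtain ⟨K, hK, hK'⟩ := key (u n)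
  obtain ⟨a, -, ha⟩ := hK.isComplete (map u atTop) hu
    (le_principal_iff.mpr (mem_map.mpr (mem_of_superset (eventually_ge_atTop n)
      fun m hm => hK' (hn m hm))))
  exact ⟨a, ha⟩

theorem complete_of_riem_covering [CompactSpace M] (hc : IsCoveringMap φ)
    (hφ : ContMDiff 𝓘(ℝ, E) 𝓘(ℝ, E) ∞ φ)
    (hi : ∀ (y : N) (v w : TangentSpace 𝓘(ℝ, E) y),
      inner ℝ (dm E φ y v) (dm E φ y w) = inner ℝ v w) : CompleteSpace N :=
  complete_of_covering hc (dist_map_le hφ hi) (isPreconnected_ball_riem E)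

end Vale.Agent.P211Z
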