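import Mathlib.Geometry.Manifold.LocalDiffeomorph
import Mathlib.Geometry.Manifold.Riemannian.Basic
import Mathlib.Topology.Covering.Basic
import Mathlib.Analysis.InnerProductSpace.PiL2
import Mathlib.Analysis.SpecialFunctions.Trigonometric.Inverse

/-! Riemannian coverings and the round real projective four-space. -/

namespace Vale.Agent.P211Z

open scoped Manifold ContDiff
open Bundle

/-- `φ : N → M` is a Riemannian covering: a surjective covering map which is a local diffeomorphism
and whose differentials preserve the scalar products. -/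
structure IsRiemannianCovering (E : Type) [NormedAddCommGroup E] [NormedSpace ℝ E]
    {M : Type} [TopologicalSpace M] [ChartedSpace E M]
    [RiemannianBundle fun p : M => TangentSpace 𝓘(ℝ, E) p]
    {N : Type} [TopologicalSpace N] [ChartedSpace E N]
    [RiemannianBundle fun p : N => TangentSpace 𝓘(ℝ, E) p] (φ : N → M) : Prop where
  covering : IsCoveringMap φ
  surjective : Function.Surjective φ
  localDiffeo : IsLocalDiffeomorph 𝓘(ℝ, E) 𝓘(ℝ, E) ∞ φ
  isometric : ∀ (y : N) (v w : TangentSpace 𝓘(ℝ, E) y),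
    inner ℝ (mfderiv 𝓘(ℝ, E) 𝓘(ℝ, E) φ y v) (mfderiv 𝓘(ℝ, E) 𝓘(ℝ, E) φ y w) = inner ℝ v w

/-- `M` is isometric to the round real projective space, the quotient of the round sphere
`S⁴(r) ⊆ ℝ⁵` of radius `r` by the antipodal map: `x ↦ ± r Z x` is the isometry, and the distance
of two pairs of antipodal points is `r * arccos |⟨z, w⟩|`. -/
def IsRoundRP4 (M : Type) [MetricSpace M] (r : ℝ) : Prop :=
  ∃ Z : M → EuclideanSpace ℝ (Fin 5), (∀ x, ‖Z x‖ = 1) ∧
    (∀ x y, dist x y = r * Real.arccos |inner ℝ (Z x) (Z y)|) ∧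
    ∀ z : EuclideanSpace ℝ (Fin 5), ‖z‖ = 1 → ∃ x, Z x = z ∨ Z x = -z

end Vale.Agent.P211Z
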