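import Vale.Agent.P211Z.Complete
import Vale.Agent.P211Z.Defs
import Mathlib.Topology.Homotopy.Lifting

/-! Metric properties of a universal Riemannian covering. -/

set_option maxSynthPendingDepth 3
set_option linter.unusedSectionVars false

namespace Vale.Agent.P211Z

open scoped Manifold ContDiff Topology ENNReal
open Bundle Filter Set Manifold Metric

/-- the metric facts on a universal covering which are used -/
structure MetricCover {N M : Type} [MetricSpace N] [MetricSpace M] (φ : N → M) : Prop where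
  surj : Function.Surjective φ
  lip : ∀ a b, dist (φ a) (φ b) ≤ dist a b
  lift : ∀ a x r, dist (φ a) x < r → ∃ b, φ b = x ∧ dist a b < r
  deck : ∀ a b, φ a = φ b → ∃ γ : N → N, Isometry γ ∧ φ ∘ γ = φ ∧ γ a = b
  rigid : ∀ γ : N → N, Continuous γ → φ ∘ γ = φ → ∀ a, γ a = a → γ = id

variable {E : Type} [NormedAddCommGroup E] [NormedSpace ℝ E] [FiniteDimensional ℝ E]
  {M : Type} [MetricSpace M] [ChartedSpace E M] [IsManifold 𝓘(ℝ, E) ∞ M]
  [RiemannianBundle fun p : M => TangentSpace 𝓘(ℝ, E) p] [IsRiemannianManifold 𝓘(ℝ, E) M]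
  {N : Type} [MetricSpace N] [ChartedSpace E N] [IsManifold 𝓘(ℝ, E) ∞ N]
  [RiemannianBundle fun p : N => TangentSpace 𝓘(ℝ, E) p] [IsRiemannianManifold 𝓘(ℝ, E) N]
  {φ : N → M}

theorem lift_contMDiffOn (hφ : IsLocalDiffeomorph 𝓘(ℝ, E) 𝓘(ℝ, E) ∞ φ) {c : ℝ → N} {s : Set ℝ}
    (hc : ContinuousOn c s) (h : ContMDiffOn 𝓘(ℝ) 𝓘(ℝ, E) 1 (φ ∘ c) s) :
    ContMDiffOn 𝓘(ℝ) 𝓘(ℝ, E) 1 c s := by
  intro t ht
  have h1 : ContMDiffWithinAt 𝓘(ℝ) 𝓘(ℝ, E) 1 (sec hφ (c t) ∘ (φ ∘ c)) s t :=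
    ContMDiffAt.comp_contMDiffWithinAt t
      ((hφ (c t)).localInverse_contMDiffAt.of_le (by simp)) (h t ht)
  refine h1.congr_of_eventuallyEq_of_mem ?_ ht
  filter_upwards [(hc t ht).tendsto.eventually (hφ (c t)).localInverse_eventuallyEq_left] with u hu
  exact hu.symm

theorem edist_le_of_lift (hφ : IsRiemannianCovering E φ) {c : ℝ → N}
    (hc : ContinuousOn c (Icc 0 1)) (h : ContMDiffOn 𝓘(ℝ) 𝓘(ℝ, E) 1 (φ ∘ c) (Icc 0 1)) :
    edist (c 0) (c 1) ≤ pathELength 𝓘(ℝ, E) (φ ∘ c) 0 1 := by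
  have h1 := lift_contMDiffOn hφ.localDiffeo hc h
  rw [pathELength_comp hφ.localDiffeo.contMDiff hφ.isometric h1,
    IsRiemannianManifold.out (I := 𝓘(ℝ, E))]
  exact riemannianEDist_le_pathELength h1 rfl rfl zero_le_one

theorem deck_lip (hφ : IsRiemannianCovering E φ) {γ : N → N} (hγ : Continuous γ)
    (h : φ ∘ γ = φ) (a b : N) : edist (γ a) (γ b) ≤ edist a b := by
  refine le_of_forall_gt fun r hr => ?_
  rw [IsRiemannianManifold.out (I := 𝓘(ℝ, E))] at hr
  obtain ⟨c, h0, h1, hc, hl⟩ := exists_lt_of_riemannianEDist_lt hr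
  have e : φ ∘ (γ ∘ c) = φ ∘ c := by rw [← Function.comp_assoc, h]
  have h2 := edist_le_of_lift hφ (c := γ ∘ c) (hγ.comp_continuousOn hc.continuousOn)
    (by rw [e]; exact (hφ.localDiffeo.contMDiff.of_le (by simp)).comp_contMDiffOn hc)
  rw [e, pathELength_comp hφ.localDiffeo.contMDiff hφ.isometric hc, Function.comp_apply,
    Function.comp_apply, h0, h1] at h2
  exact h2.trans_lt hl

theorem metricCover [SimplyConnectedSpace N] (hφ : IsRiemannianCovering E φ) : MetricCover φ := by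
  have : LocallyPathConnectedSpace N := ChartedSpace.locallyPathConnectedSpace E N
  have rigid : ∀ γ : N → N, Continuous γ → φ ∘ γ = φ → ∀ a, γ a = a → γ = id :=
    fun γ hγ h a ha => hφ.covering.eq_of_comp_eq hγ continuous_id h a ha
  have ex : ∀ a b, φ a = φ b → ∃ γ : N → N, Continuous γ ∧ φ ∘ γ = φ ∧ γ a = b := by
    intro a b hab
    obtain ⟨F, ⟨h1, h2⟩, -⟩ := hφ.covering.existsUnique_continuousMap_lifts
      ⟨φ, hφ.covering.continuous⟩ a b hab.symm
    exact ⟨F, F.continuous, h2, h1⟩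
  refine ⟨hφ.surjective, dist_map_le hφ.localDiffeo.contMDiff hφ.isometric, ?_, ?_, rigid⟩
  · intro a x r hr
    rw [← edist_lt_ofReal, IsRiemannianManifold.out (I := 𝓘(ℝ, E))] at hr
    obtain ⟨c, h0, h1, hc, hl⟩ := exists_lt_of_riemannianEDist_lt hr
    let c' : C(unitInterval, M) := ⟨fun t => c t, hc.continuousOn.domRestrict⟩
    obtain ⟨Γ, hΓ, hΓ0⟩ := hφ.covering.exists_path_lifts c' a h0
    let g : ℝ → N := Γ ∘ projIcc 0 1 zero_le_one
    have hg : EqOn (φ ∘ g) c (Icc 0 1) := by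
      intro t ht
      change φ (Γ (projIcc 0 1 zero_le_one t)) = c t
      rw [projIcc_of_mem _ ht]
      exact congrFun hΓ ⟨t, ht⟩
    have h2 := edist_le_of_lift hφ (c := g) (Γ.continuous.comp continuous_projIcc).continuousOn
      (hc.congr hg)
    rw [pathELength_congr hg] at h2
    have h3 : g 0 = a := by
      change Γ (projIcc 0 1 zero_le_one 0) = a
      rw [projIcc_left]
      exact hΓ0
    refine ⟨g 1, (hg (right_mem_Icc.mpr zero_le_one)).trans h1, ?_⟩
    rw [← edist_lt_ofReal, ← h3]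
    exact h2.trans_lt hl
  · intro a b hab
    obtain ⟨γ, hγ, h1, h2⟩ := ex a b hab
    obtain ⟨δ, hδ, h3, h4⟩ := ex b a hab.symm
    have h5 : δ ∘ γ = id := rigid _ (hδ.comp hγ) (by rw [← Function.comp_assoc, h3, h1]) a
      (by rw [Function.comp_apply, h2, h4])
    refine ⟨γ, fun x y => le_antisymm (deck_lip hφ hγ h1 x y) ?_, h1, h2⟩
    have h6 := deck_lip hφ hδ h3 (γ x) (γ y)
    rwa [show δ (γ x) = x from congrFun h5 x, show δ (γ y) = y from congrFun h5 y] at h6

theorem MetricCover.dist_eq_of_injective {N M : Type} [MetricSpace N] [MetricSpace M] {φ : N → M}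
    (h : MetricCover φ) (hi : Function.Injective φ) (a b : N) : dist (φ a) (φ b) = dist a b := by
  refine le_antisymm (h.lip a b) (le_of_forall_gt fun r hr => ?_)
  obtain ⟨b', h1, h2⟩ := h.lift a _ r hr
  rwa [hi h1] at h2

end Vale.Agent.P211Z
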