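import Vale.Agent.P211Z.Chart
import Vale.Agent.P211Z.G.Jet
import Vale.Agent.P211Z.G.Geo
import Vale.Agent.P211Z.G.Step
import Vale.Agent.P211Z.G.Svi

/-! Compactness of complete Einstein manifolds with positive constant and `K ≥ 0`. -/

set_option maxSynthPendingDepth 3
set_option linter.unusedSectionVars false

namespace Vale.Agent.P211Z

open scoped Manifold ContDiff Topology
open Bundle Filter Set MeasureTheory IsManifold Vale.Agent.P211 Vale.Agent.P211.NN
open Vale.Agent.P210.R2.H53 Vale.Agent.P210.R2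

variable {E : Type} [NormedAddCommGroup E] [NormedSpace ℝ E] [FiniteDimensional ℝ E]
  {M : Type} [MetricSpace M] [ChartedSpace E M] [IsManifold 𝓘(ℝ, E) ∞ M]
  [RiemannianBundle fun p : M => TangentSpace 𝓘(ℝ, E) p]
  [IsContMDiffRiemannianBundle 𝓘(ℝ, E) ∞ E fun p : M => TangentSpace 𝓘(ℝ, E) p]
  [IsRiemannianManifold 𝓘(ℝ, E) M]
  {cov : CovariantDerivative 𝓘(ℝ, E) E (TangentSpace 𝓘(ℝ, E) : M → Type)}

theorem unit_speed {c : ℝ → M} {l s : ℝ} (hl : 0 < l) (hc : MinGeo c 0 l) (hs : s ∈ Ioo 0 l)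
    {e : OpenPartialHomeomorph M E} (he : e ∈ maximalAtlas 𝓘(ℝ, E) ∞ M) (hce : c s ∈ e.source)
    {v : E} (hv : HasDerivAt (fun t => e (c t)) v s) : chartG e (e (c s)) v v = 1 := by
  obtain ⟨δ, hδ, w, w', h1, h2⟩ := (H196.geo E M).2.1 c 0 l s hl hc (Ioo_subset_Icc_self hs) e he hce
  have h0 : |s - s| < δ := by simpa using hδ
  have h3 : (fun t => e (c t)) =ᶠ[𝓝 s] w := by
    filter_upwards [Icc_mem_nhds hs.1 hs.2, Metric.ball_mem_nhds s hδ] with t ht ht'
    exact (h2 t ht ht').2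
  obtain ⟨h4, -, -, h5⟩ := h1 s h0
  rw [hv.unique (h4.congr_of_eventuallyEq h3), h3.eq_of_nhds]
  exact h5

theorem length_bound (hdim : Module.finrank ℝ E = 4) (hc : IsLC cov) (hK : SecNonneg cov)
    {lam : ℝ} (hlam : 0 < lam) (hR : RicciEq cov fun _ => lam) {c : ℝ → M} {l : ℝ} (hl : 0 < l)
    (hg : MinGeo c 0 l) : lam * l ^ 2 ≤ 270 := by
  have hκ : 0 < √(lam / 10) := Real.sqrt_pos.mpr (by positivity)
  have hκ2 : √(lam / 10) ^ 2 = lam / 10 := Real.sq_sqrt (by positivity)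
  have h := Vale.Agent.P210.H204.svi_holds (step_holds H265.jet_holds) H196.geo H265.jet_holds E M
    √(lam / 10) hκ (secGE_of hc hK _) c l (1 / 8) (fun _ => lam) hl (by norm_num) le_rfl hg
    continuousOn_const (fun s hs e he hce v hv b hb => by
      rw [ricci_chart hdim hc hR he (e.map_source hce) b hb v, unit_speed hl hg hs he hce hv,
        mul_one])
  rw [hdim, hκ2, setIntegral_const, Measure.real, Real.volume_Icc,
    ENNReal.toReal_ofReal (by nlinarith), smul_eq_mul] at h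
  push_cast at h
  have h2 : 2 * (4 : ℝ) / (1 / 8 * l) = 64 / l := by field_simp; norm_num
  rw [h2] at h
  have h3 : lam * l * (19 / 80) ≤ 64 / l := by linarith
  rw [le_div_iff₀ hl] at h3
  nlinarith [mul_pos hlam (sq_pos_of_pos hl)]

theorem compact_of_complete [CompleteSpace M] [ConnectedSpace M] (hdim : Module.finrank ℝ E = 4)
    (hc : IsLC cov) (hK : SecNonneg cov) {lam : ℝ} (hlam : 0 < lam)
    (hR : RicciEq cov fun _ => lam) : CompactSpace M := by
  obtain ⟨hP, hG⟩ := (H196.geo E M).1 inferInstance inferInstance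
  refine ⟨Metric.isCompact_of_isClosed_isBounded isClosed_univ ?_⟩
  refine Metric.isBounded_iff.mpr ⟨√(270 / lam), fun x _ y _ => ?_⟩
  rcases (dist_nonneg (x := x) (y := y)).eq_or_lt with h | h
  · rw [← h]; exact Real.sqrt_nonneg _
  · obtain ⟨c, hg, -, -⟩ := hG x y
    refine Real.le_sqrt_of_sq_le ?_
    rw [le_div_iff₀ hlam, mul_comm]
    exact length_bound hdim hc hK hlam hR h hg

end Vale.Agent.P211Z
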