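import Vale.Agent.P211Z.Pull1
import Vale.Agent.P211Z.Defs
import Vale.Agent.P300.H903.UC

/-! Existence of the universal Riemannian covering. -/

set_option maxSynthPendingDepth 3
set_option linter.unusedSectionVars false

namespace Vale.Agent.P211Z

open scoped Manifold ContDiff Topology ENNReal
open Bundle Filter Set Manifold Vale.Agent.P211 Vale.Agent.P211.NN

noncomputable section

variable {E : Type} [NormedAddCommGroup E] [NormedSpace ℝ E] [FiniteDimensional ℝ E]
  {M : Type} [TopologicalSpace M] [ChartedSpace E M] [IsManifold 𝓘(ℝ, E) ∞ M] [T2Space M]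
  [RiemannianBundle fun p : M => TangentSpace 𝓘(ℝ, E) p]
  [IsContMDiffRiemannianBundle 𝓘(ℝ, E) ∞ E fun p : M => TangentSpace 𝓘(ℝ, E) p]

section metric

variable {N : Type} [TopologicalSpace N] [ChartedSpace E N] [IsManifold 𝓘(ℝ, E) ∞ N] [T2Space N]
  {φ : N → M}

/-- the pulled back scalar product -/
def pinner (E : Type) [NormedAddCommGroup E] [NormedSpace ℝ E] [ChartedSpace E M]
    [RiemannianBundle fun p : M => TangentSpace 𝓘(ℝ, E) p] [ChartedSpace E N] (φ : N → M) (y : N) :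
    TangentSpace 𝓘(ℝ, E) y →L[ℝ] TangentSpace 𝓘(ℝ, E) y →L[ℝ] ℝ :=
  ((dm E φ y).precomp ℝ).comp ((innerSL ℝ (E := TangentSpace 𝓘(ℝ, E) (φ y))).comp (dm E φ y))

theorem pinner_apply (y : N) (v w : TangentSpace 𝓘(ℝ, E) y) :
    pinner E φ y v w = inner ℝ (dm E φ y v) (dm E φ y w) := rfl

/-- the pulled back metric -/
def pmetric (hφ : IsLocalDiffeomorph 𝓘(ℝ, E) 𝓘(ℝ, E) ∞ φ) :
    ContMDiffRiemannianMetric 𝓘(ℝ, E) ∞ E (fun y : N => TangentSpace 𝓘(ℝ, E) y) where
  inner := pinner E φ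
  symm y v w := by rw [pinner_apply, pinner_apply, real_inner_comm]
  pos y v hv := real_inner_self_pos.2 fun h =>
    hv ((inv_of_ld (hφ y)).injective (h.trans (map_zero _).symm))
  isVonNBounded y := by
    refine ((NormedSpace.isVonNBounded_ball ℝ (TangentSpace 𝓘(ℝ, E) (φ y)) 1).image
      (dm E φ y).inverse).subset fun v hv => ?_
    refine ⟨dm E φ y v, ?_, ?_⟩
    · have h1 : inner ℝ (dm E φ y v) (dm E φ y v) < 1 := hv
      rw [real_inner_self_eq_norm_sq] at h1
      rw [mem_ball_zero_iff]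
      nlinarith [norm_nonneg (dm E φ y v)]
    · exact (inv_of_ld (hφ y)).inverse_apply_self v
  contMDiff y := by
    rw [contMDiffAt_hom_bundle]
    refine ⟨contMDiffAt_id, contMDiffAt_clm_of_apply fun v => contMDiffAt_clm_of_apply fun w => ?_⟩
    obtain ⟨S, hS⟩ := exists_const_field (E := E) y v
    obtain ⟨T, hT⟩ := exists_const_field (E := E) y w
    obtain ⟨X, hX⟩ := exists_rel hφ (y := y) (σ := S) (Eventually.of_forall fun z => S.contMDiff z)
    obtain ⟨Y, hY⟩ := exists_rel hφ (y := y) (σ := T) (Eventually.of_forall fun z => T.contMDiff z)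
    refine (((gVF X Y).contMDiff.comp hφ.contMDiff) y).congr_of_eventuallyEq ?_
    let e := trivializationAt E (TangentSpace 𝓘(ℝ, E) : N → Type) y
    filter_upwards [hS, hT, hX, hY,
      e.open_baseSet.mem_nhds (FiberBundle.mem_baseSet_trivializationAt' y)] with z h1 h2 h3 h4 h5
    refine (inCoordinates_apply_eq₂ (E₃ := Bundle.Trivial N ℝ) h5 h5 (mem_univ _)).trans ?_
    rw [Trivialization.symmL_apply _ h5] at h1 h2
    rw [← h1, ← h2, h3, h4, pinner_apply, dm_pull (hφ z), dm_pull (hφ z)]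
    simp [gVF_apply]

end metric

theorem exists_universal [ConnectedSpace M] :
    ∃ (N : Type) (_ : MetricSpace N) (_ : ChartedSpace E N) (_ : IsManifold 𝓘(ℝ, E) ∞ N)
      (_ : RiemannianBundle fun p : N => TangentSpace 𝓘(ℝ, E) p)
      (_ : IsContMDiffRiemannianBundle 𝓘(ℝ, E) ∞ E fun p : N => TangentSpace 𝓘(ℝ, E) p)
      (_ : IsRiemannianManifold 𝓘(ℝ, E) N) (φ : N → M),
      SimplyConnectedSpace N ∧ IsRiemannianCovering E φ := by
  obtain ⟨N, tN, φ, h2, hsc, hcov, hsurj, -⟩ := Vale.Agent.P300.H903.exists_topUC (F := E) M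
  let cN : ChartedSpace E N := Vale.Agent.P300.H903.pullCharted hcov.isLocalHomeomorph
  have mN : IsManifold 𝓘(ℝ, E) ∞ N := Vale.Agent.P300.H903.pullManifold hcov.isLocalHomeomorph
  have hφ : IsLocalDiffeomorph 𝓘(ℝ, E) 𝓘(ℝ, E) ∞ φ :=
    Vale.Agent.P300.H903.pullLocalDiffeo hcov.isLocalHomeomorph
  let rN : RiemannianBundle fun p : N => TangentSpace 𝓘(ℝ, E) p :=
    ⟨(pmetric hφ).toRiemannianMetric⟩
  have sN : IsContMDiffRiemannianBundle 𝓘(ℝ, E) ∞ E fun p : N => TangentSpace 𝓘(ℝ, E) p :=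
    ⟨(pmetric hφ).inner, (pmetric hφ).contMDiff, fun _ _ _ => rfl⟩
  have : IsContinuousRiemannianBundle E fun p : N => TangentSpace 𝓘(ℝ, E) p :=
    ⟨(pmetric hφ).inner, (pmetric hφ).contMDiff.continuous, fun _ _ _ => rfl⟩
  have : ProperSpace E := FiniteDimensional.proper_real E
  have : LocallyCompactSpace N := ChartedSpace.locallyCompactSpace E N
  let eN : EMetricSpace N := EMetricSpace.ofRiemannianMetric 𝓘(ℝ, E) N
  have hfin : ∀ x y : N, edist x y ≠ ⊤ := by
    intro x y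
    have h1 : IsClopen (Metric.eball y ⊤) := ⟨Metric.isClosed_eball_top, Metric.isOpen_eball⟩
    have h3 := h1.eq_univ ⟨y, Metric.mem_eball_self (by simp)⟩
    have h4 : x ∈ Metric.eball y ⊤ := h3 ▸ mem_univ x
    exact ne_of_lt h4
  exact ⟨N, EMetricSpace.toMetricSpace hfin, cN, mN, rN, sN, ⟨fun _ _ => rfl⟩, φ, hsc,
    hcov, hsurj, hφ, fun y v w => (pinner_apply (φ := φ) y v w).symm⟩

end

end Vale.Agent.P211Z
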