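import Vale.Agent.P211Z.Pull2
import Vale.Agent.P211Z.Myers
import Vale.Agent.P211Z.Complete
import Vale.Agent.P211Z.Univ
import Vale.Agent.P211.H555.Bridge
import Vale.Agent.P211.HK.Fin2
import Vale.Agent.P211.HK.HKTop
import Vale.Agent.P211.HK.IXfin
import Vale.Agent.P211.HK.S22Fin
import Vale.Agent.P211.H210.CoreProof

/-! The classification of the universal Riemannian coverings. -/

set_option maxSynthPendingDepth 3
set_option linter.unusedSectionVars false

namespace Vale.Agent.P211Z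

open scoped Manifold ContDiff
open Bundle Vale.Agent.P211 Vale.Agent.P211.NN Vale.Agent.P211.HK

variable {E : Type} [NormedAddCommGroup E] [NormedSpace ℝ E] [FiniteDimensional ℝ E]
  {M : Type} [MetricSpace M] [CompactSpace M] [ConnectedSpace M]
  [ChartedSpace E M] [IsManifold 𝓘(ℝ, E) ∞ M]
  [RiemannianBundle fun p : M => TangentSpace 𝓘(ℝ, E) p]
  [IsContMDiffRiemannianBundle 𝓘(ℝ, E) ∞ E fun p : M => TangentSpace 𝓘(ℝ, E) p]
  [IsRiemannianManifold 𝓘(ℝ, E) M]

theorem classify (hdim : Module.finrank ℝ E = 4)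
    (cov : CovariantDerivative 𝓘(ℝ, E) E (TangentSpace 𝓘(ℝ, E) : M → Type))
    (hs : cov.ContMDiffCovariantDerivative ∞) (ht : cov.torsion = 0)
    (hm : CovariantDerivative.IsMetricCompatible (V := (TangentSpace 𝓘(ℝ, E) : M → Type)) cov)
    (hK : SecNonneg cov) {lam : ℝ} (hlam : 0 < lam) (hR : RicciEq cov (fun _ => lam))
    (N : Type) [MetricSpace N] [ChartedSpace E N] [IsManifold 𝓘(ℝ, E) ∞ N]
    [RiemannianBundle fun p : N => TangentSpace 𝓘(ℝ, E) p]
    [IsContMDiffRiemannianBundle 𝓘(ℝ, E) ∞ E fun p : N => TangentSpace 𝓘(ℝ, E) p]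
    [IsRiemannianManifold 𝓘(ℝ, E) N] (φ : N → M) (hN : SimplyConnectedSpace N)
    (hφ : IsRiemannianCovering E φ) :
    CompactSpace N ∧
    (IsRoundS4 N √(3 / lam) ∨ IsFubiniStudyCP2 N √(6 / lam) ∨ IsRoundS2S2 N √(1 / lam)) ∧
    ((∃ p : M, ∀ X Y : SmoothField E M, LinearIndependent ℝ ![X p, Y p] →
        0 < Rm cov X Y Y X p) → IsRoundS4 N √(3 / lam) ∨ IsFubiniStudyCP2 N √(6 / lam)) := by
  have hs' := pcov_smooth hφ.localDiffeo cov hs
  have ht' := pcov_torsion hφ.localDiffeo cov ht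
  have hm' := pcov_metric hφ.localDiffeo cov hφ.isometric hm
  have hK' := pcov_secNonneg hφ.localDiffeo cov hs hφ.isometric hK
  have hR' := pcov_ricciEq hφ.localDiffeo cov hs hφ.isometric hR
  have : CompleteSpace N :=
    complete_of_riem_covering hφ.covering hφ.localDiffeo.contMDiff hφ.isometric
  have hc : CompactSpace N :=
    compact_of_complete hdim (isLC_of (H555.levi hs' ht' hm')) hK' hlam hR'
  let _ : MeasurableSpace N := borel N
  have _ : BorelSpace N := ⟨rfl⟩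
  obtain ⟨-, h1, h3⟩ := finConcl_of2 Vale.Agent.P211.H210.core hdim hs' ht' hm' hK' hlam hR'
    (fun om => IX.ix _ om lam (hkMain _ om)) (fun om => S22.s22 (om := om) (lam := lam))
  refine ⟨hc, h1 hN, fun ⟨p, hp⟩ => h3 ?_ (Or.inr hN)⟩
  obtain ⟨y, rfl⟩ := hφ.surjective p
  exact ⟨y, pcov_secPos hφ.localDiffeo cov hs hφ.isometric hp⟩

end Vale.Agent.P211Z
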