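import Vale.Agent.P211Z.Wigner

/-! Quotients of the complex projective plane. -/

namespace Vale.Agent.P211Z

open Matrix Complex Vale.Agent.P211.HK
open scoped ComplexConjugate

theorem ip_conj (z w : Fin 3 → ℂ) : conj (ip z w) = ip w z := by
  simp only [ip, Fin.sum_univ_three, map_add, map_mul, Complex.conj_conj]; ring

theorem norm_ip_comm (z w : Fin 3 → ℂ) : ‖ip z w‖ = ‖ip w z‖ := by
  rw [← ip_conj, Complex.norm_conj]

theorem ip_sub_smul (z w : Fin 3 → ℂ) (c : ℂ) : ip (z - c • w) (z - c • w)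
    = ip z z - c * ip z w - conj c * ip w z + conj c * c * ip w w := by
  simp only [ip, Fin.sum_univ_three, Pi.sub_apply, Pi.smul_apply, smul_eq_mul, map_sub, map_mul]
  ring

theorem ip_defect {z w : Fin 3 → ℂ} (hz : ip z z = 1) (hw : ip w w = 1) :
    ∑ i, ‖(z - ip w z • w) i‖ ^ 2 = 1 - ‖ip w z‖ ^ 2 := by
  have h := ip_sub_smul z w (ip w z)
  rw [ip_self, hz, hw, ← ip_conj w z, Complex.conj_mul', Complex.mul_conj'] at h
  have h1 : ((∑ i, ‖(z - ip w z • w) i‖ ^ 2 : ℝ) : ℂ) = ((1 - ‖ip w z‖ ^ 2 : ℝ) : ℂ) := by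
    rw [h]; push_cast; ring
  exact_mod_cast h1

theorem norm_ip_le {z w : Fin 3 → ℂ} (hz : ip z z = 1) (hw : ip w w = 1) : ‖ip w z‖ ≤ 1 := by
  have h := ip_defect hz hw
  have h1 : 0 ≤ ∑ i, ‖(z - ip w z • w) i‖ ^ 2 := by positivity
  nlinarith [norm_nonneg (ip w z)]

theorem eq_smul_of_norm_ip {z w : Fin 3 → ℂ} (hz : ip z z = 1) (hw : ip w w = 1)
    (h : ‖ip w z‖ = 1) : z = ip w z • w := by
  by_contra hne
  have h1 := norm_ip_self_pos (sub_ne_zero.mpr hne)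
  rw [norm_ip_self, ip_defect hz hw, h] at h1
  norm_num at h1

theorem exists_line {N : Type} {Z : N → Fin 3 → ℂ} (h1 : ∀ x, ip (Z x) (Z x) = 1)
    (h3 : ∀ z : Fin 3 → ℂ, ∑ i, ‖z i‖ ^ 2 = 1 → ∃ x, ‖ip (Z x) z‖ = 1) (z : Fin 3 → ℂ) :
    ∃ (x : N) (c : ℂ), z = c • Z x := by
  by_cases hz : z = 0
  · obtain ⟨x, -⟩ := h3 (Pi.single 0 1) (by simp [Fin.sum_univ_three])
    exact ⟨x, 0, by rw [hz, zero_smul]⟩
  · have hp := norm_ip_self_pos hz
    set a : ℝ := √‖ip z z‖ with ha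
    have ha0 : 0 < a := Real.sqrt_pos.mpr hp
    have ha2 : a ^ 2 = ∑ i, ‖z i‖ ^ 2 := by rw [ha, Real.sq_sqrt hp.le, norm_ip_self]
    have hu : ∑ i, ‖(((a⁻¹ : ℝ) : ℂ) • z) i‖ ^ 2 = 1 := by
      simp only [Pi.smul_apply, smul_eq_mul, norm_mul, mul_pow, Complex.norm_real]
      rw [← Finset.mul_sum, ← ha2, Real.norm_of_nonneg (inv_nonneg.mpr ha0.le)]
      field_simp
    obtain ⟨x, hx⟩ := h3 _ hu
    have h4 := eq_smul_of_norm_ip (by rw [ip_self, hu]; rfl) (h1 x) hx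
    refine ⟨x, (a : ℂ) * ip (Z x) (((a⁻¹ : ℝ) : ℂ) • z), ?_⟩
    rw [mul_smul, ← h4, smul_smul, ← Complex.ofReal_mul, mul_inv_cancel₀ ha0.ne']
    simp

theorem cp2_fixed {N : Type} [MetricSpace N] {c : ℝ} (hc : 0 < c) (h : IsFubiniStudyCP2 N c)
    {γ : N → N} (hγ : Isometry γ) : ∃ x, γ x = x := by
  obtain ⟨Z, h1, h2, h3⟩ := h
  have h1' : ∀ x, ip (Z x) (Z x) = 1 := fun x => by rw [ip_self, h1]; rfl
  have h2' : ∀ x y, dist x y = c * Real.arccos ‖ip (Z x) (Z y)‖ := h2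
  have hmem : ∀ x y, ‖ip (Z x) (Z y)‖ ∈ Set.Icc (-1 : ℝ) 1 := fun x y =>
    ⟨le_trans (by norm_num) (norm_nonneg _), norm_ip_le (h1' y) (h1' x)⟩
  have hi : ∀ x y, ‖ip (Z (γ x)) (Z (γ y))‖ = ‖ip (Z x) (Z y)‖ := by
    intro x y
    have h := hγ.dist_eq x y
    rw [h2', h2'] at h
    exact Real.arccos_injOn (hmem _ _) (hmem _ _) (mul_left_cancel₀ hc.ne' h)
  choose X C hXC using exists_line h1' h3
  obtain ⟨z, hz, hT⟩ := wigner_fixed (T := fun z => C z • Z (γ (X z))) fun z w => by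
    conv_rhs => rw [hXC z, hXC w]
    simp only [ip_smul_left, ip_smul_right, norm_mul, hi]
  refine ⟨X z, ?_⟩
  have hC : C z ≠ 0 := fun h0 => hz (by rw [hXC z, h0, zero_smul])
  have h4 : ‖ip (C z • Z (X z)) (C z • Z (γ (X z)))‖ = ‖ip (C z • Z (X z)) (C z • Z (X z))‖ := by
    rw [← hXC z]; exact hT
  simp only [ip_smul_left, ip_smul_right, norm_mul, h1', norm_one, Complex.norm_conj] at h4
  have hn : ‖C z‖ ≠ 0 := norm_ne_zero_iff.mpr hC
  have h5 := mul_left_cancel₀ hn (mul_left_cancel₀ hn h4)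
  rw [← dist_eq_zero, dist_comm, h2', h5]
  simp

theorem quotient_CP2 {N M : Type} [MetricSpace N] [MetricSpace M] {φ : N → M}
    (hφ : MetricCover φ) {c : ℝ} (hc : 0 < c) (h : IsFubiniStudyCP2 N c) :
    IsFubiniStudyCP2 M c := by
  have hi : Function.Injective φ := by
    intro a b hab
    obtain ⟨γ, hγ, hφγ, rfl⟩ := hφ.deck a b hab
    obtain ⟨x, hx⟩ := cp2_fixed hc h hγ
    rw [hφ.rigid γ hγ.continuous hφγ x hx]
    rfl
  obtain ⟨Z, h1, h2, h3⟩ := h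
  have hs := Function.surjInv_eq hφ.surj
  refine ⟨Z ∘ Function.surjInv hφ.surj, fun x => h1 _, fun x y => ?_, fun z hz => ?_⟩
  · rw [Function.comp_apply, Function.comp_apply, ← h2, ← hφ.dist_eq_of_injective hi, hs, hs]
  · obtain ⟨a, ha⟩ := h3 z hz
    exact ⟨φ a, by rw [Function.comp_apply, hi (hs (φ a)), ha]⟩

end Vale.Agent.P211Z
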