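import Vale.Agent.P211.Bdl.B1
import Vale.Agent.P211.H555.Defs
import Mathlib.Geometry.Manifold.LocalDiffeomorph

/-! Vector fields along a local diffeomorphism. -/

set_option maxSynthPendingDepth 3
set_option linter.unusedSectionVars false

namespace Vale.Agent.P211Z

open scoped Manifold ContDiff Topology
open Bundle Filter VectorField Vale.Agent.P211 Vale.Agent.P211.NN

noncomputable section

variable {E : Type} [NormedAddCommGroup E] [NormedSpace ℝ E] [FiniteDimensional ℝ E]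
  {M : Type} [TopologicalSpace M] [ChartedSpace E M] [IsManifold 𝓘(ℝ, E) ∞ M]
  {N : Type} [TopologicalSpace N] [ChartedSpace E N] [IsManifold 𝓘(ℝ, E) ∞ N]

/-- the differential -/
abbrev dm (E : Type) [NormedAddCommGroup E] [NormedSpace ℝ E] [ChartedSpace E M]
    [ChartedSpace E N] (φ : N → M) (y : N) :
    TangentSpace 𝓘(ℝ, E) y →L[ℝ] TangentSpace 𝓘(ℝ, E) (φ y) :=
  mfderiv 𝓘(ℝ, E) 𝓘(ℝ, E) φ y

/-- the pullback of a field -/
abbrev pull (φ : N → M) (X : Field E M) : Field E N := mpullback 𝓘(ℝ, E) 𝓘(ℝ, E) φ X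

/-- differentiable field at a point -/
abbrev Md (X : Field E M) (x : M) : Prop :=
  MDifferentiableAt 𝓘(ℝ, E) (𝓘(ℝ, E).prod 𝓘(ℝ, E))
    (fun p => (⟨p, X p⟩ : TangentBundle 𝓘(ℝ, E) M)) x

/-- smooth field at a point -/
abbrev Sm (X : Field E M) (x : M) : Prop :=
  ContMDiffAt 𝓘(ℝ, E) (𝓘(ℝ, E).prod 𝓘(ℝ, E)) ∞
    (fun p => (⟨p, X p⟩ : TangentBundle 𝓘(ℝ, E) M)) x

theorem Sm.md {X : Field E M} {x : M} (h : Sm X x) : Md X x := h.mdifferentiableAt (by simp)

theorem Md.congr {X Y : Field E M} {x : M} (h : Md X x) (e : ∀ᶠ y in 𝓝 x, Y y = X y) : Md Y x := by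
  refine MDifferentiableAt.congr_of_eventuallyEq h ?_
  filter_upwards [e] with y hy
  rw [hy]

theorem Sm.congr {X Y : Field E M} {x : M} (h : Sm X x) (e : ∀ᶠ y in 𝓝 x, Y y = X y) : Sm Y x := by
  refine ContMDiffAt.congr_of_eventuallyEq h ?_
  filter_upwards [e] with y hy
  rw [hy]

theorem pull_congr {f g : N → M} {y : N} (h : f =ᶠ[𝓝 y] g) (X : Field E M) :
    pull f X y = pull g X y := by
  have h1 : f y = g y := h.eq_of_nhds
  have h2 : (mfderiv 𝓘(ℝ, E) 𝓘(ℝ, E) f y : E →L[ℝ] E) = mfderiv 𝓘(ℝ, E) 𝓘(ℝ, E) g y :=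
    h.mfderiv_eq
  let Φ : M → (E →L[ℝ] E) → E := fun p L => L.inverse (X p)
  change Φ (f y) (mfderiv 𝓘(ℝ, E) 𝓘(ℝ, E) f y) = Φ (g y) (mfderiv 𝓘(ℝ, E) 𝓘(ℝ, E) g y)
  rw [h1, h2]

theorem pull_comp {P : Type} [TopologicalSpace P] [ChartedSpace E P] {g : M → P} {f : N → M}
    {y : N} (hg : MDifferentiableAt 𝓘(ℝ, E) 𝓘(ℝ, E) g (f y)) (hf : (dm E f y).IsInvertible)
    (X : Field E P) : pull (g ∘ f) X y = pull f (pull g X) y := by
  have h := mpullbackWithin_comp_of_right (I := 𝓘(ℝ, E)) (I' := 𝓘(ℝ, E)) (I'' := 𝓘(ℝ, E))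
    (g := g) (f := f) (V := X) (s := Set.univ) (t := Set.univ) (x₀ := y)
    hg.mdifferentiableWithinAt (Set.mapsTo_univ _ _) (uniqueMDiffWithinAt_univ _)
    (by rwa [mfderivWithin_univ])
  simpa only [mpullbackWithin_univ] using h

theorem inv_of_ld {f : N → M} {y : N} (h : IsLocalDiffeomorphAt 𝓘(ℝ, E) 𝓘(ℝ, E) ∞ f y) :
    (dm E f y).IsInvertible :=
  ⟨h.mfderivToContinuousLinearEquiv (by simp), rfl⟩

theorem Md.pull {f : N → M} {y : N} (h : IsLocalDiffeomorphAt 𝓘(ℝ, E) 𝓘(ℝ, E) ∞ f y)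
    {X : Field E M} (hX : Md X (f y)) : Md (pull f X) y :=
  MDifferentiableAt.mpullback_vectorField hX h.contMDiffAt (inv_of_ld h) (by norm_cast)

theorem Sm.pull {f : N → M} {y : N} (h : IsLocalDiffeomorphAt 𝓘(ℝ, E) 𝓘(ℝ, E) ∞ f y)
    {X : Field E M} (hX : Sm X (f y)) : Sm (pull f X) y :=
  ContMDiffAt.mpullback_vectorField_preimage hX h.contMDiffAt (inv_of_ld h) (by simp)

theorem dm_pull {f : N → M} {y : N} (h : IsLocalDiffeomorphAt 𝓘(ℝ, E) 𝓘(ℝ, E) ∞ f y)
    (X : Field E M) : dm E f y (pull f X y) = X (f y) :=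
  (inv_of_ld h).self_apply_inverse _

theorem pull_bracket {f : N → M} {y : N} (h : IsLocalDiffeomorphAt 𝓘(ℝ, E) 𝓘(ℝ, E) ∞ f y)
    {X Y : Field E M} (hX : Md X (f y)) (hY : Md Y (f y)) :
    mlieBracket 𝓘(ℝ, E) (pull f X) (pull f Y) y = pull f (mlieBracket 𝓘(ℝ, E) X Y) y := by
  have : IsManifold 𝓘(ℝ, E) (minSmoothness ℝ 2) M := by
    rw [minSmoothness_of_isRCLikeNormedField]
    exact IsManifold.of_le (n := ∞) (by norm_cast)
  have : IsManifold 𝓘(ℝ, E) (minSmoothness ℝ 2) N := by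
    rw [minSmoothness_of_isRCLikeNormedField]
    exact IsManifold.of_le (n := ∞) (by norm_cast)
  refine (mpullback_mlieBracket hX hY h.contMDiffAt ?_).symm
  rw [minSmoothness_of_isRCLikeNormedField]
  norm_cast

variable {φ : N → M} (hφ : IsLocalDiffeomorph 𝓘(ℝ, E) 𝓘(ℝ, E) ∞ φ)

/-- the local section through `y` -/
def sec (y : N) : M → N := (hφ y).localInverse

theorem sec_self (y : N) : sec hφ y (φ y) = y :=
  (hφ y).localInverse_left_inv (hφ y).localInverse_mem_target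

theorem sec_ld (y : N) : ∀ᶠ x in 𝓝 (φ y), IsLocalDiffeomorphAt 𝓘(ℝ, E) 𝓘(ℝ, E) ∞ (sec hφ y) x := by
  filter_upwards [(hφ y).localInverse_open_source.mem_nhds (hφ y).localInverse_mem_source]
    with x hx
  exact (hφ y).localInverse.isLocalDiffeomorphAt _ _ _ hx

include hφ in
theorem tendsto_pi (y : N) : Tendsto φ (𝓝 y) (𝓝 (φ y)) :=
  hφ.contMDiff.continuous.continuousAt

theorem tendsto_sec (y : N) : Tendsto (sec hφ y) (𝓝 (φ y)) (𝓝 y) := by
  have h := (hφ y).localInverse_contMDiffAt.continuousAt.tendsto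
  have h2 := sec_self hφ y
  unfold sec at h2 ⊢
  rwa [h2] at h

/-- the push-forward of a field along the local section -/
def push (y : N) (σ : Field E N) : Field E M := pull (sec hφ y) σ

theorem pull_push (y : N) (σ : Field E N) : ∀ᶠ z in 𝓝 y, pull φ (push hφ y σ) z = σ z := by
  have h1 : ∀ᶠ z in 𝓝 y, sec hφ y ∘ φ =ᶠ[𝓝 z] id :=
    (hφ y).localInverse_eventuallyEq_left.eventuallyEq_nhds
  filter_upwards [h1, (tendsto_pi hφ y).eventually (sec_ld hφ y)] with z hz hz'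
  unfold push
  rw [← pull_comp (hz'.mdifferentiableAt (by simp)) (inv_of_ld (hφ z)), pull_congr hz]
  exact congrFun mpullback_id z

theorem push_pull (y : N) (X : Field E M) : ∀ᶠ x in 𝓝 (φ y), push hφ y (pull φ X) x = X x := by
  have h1 : ∀ᶠ x in 𝓝 (φ y), φ ∘ sec hφ y =ᶠ[𝓝 x] id :=
    (hφ y).localInverse_eventuallyEq_right.eventuallyEq_nhds
  filter_upwards [h1, sec_ld hφ y] with x hx hx'
  unfold push
  rw [← pull_comp ((hφ _).mdifferentiableAt (by simp)) (inv_of_ld hx'), pull_congr hx]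
  exact congrFun mpullback_id x

theorem push_congr (y : N) {σ τ : Field E N} (h : ∀ᶠ z in 𝓝 y, σ z = τ z) :
    ∀ᶠ x in 𝓝 (φ y), push hφ y σ x = push hφ y τ x := by
  filter_upwards [(tendsto_sec hφ y).eventually h] with x hx
  change (dm E (sec hφ y) x).inverse (σ _) = (dm E (sec hφ y) x).inverse (τ _)
  rw [hx]

theorem push_of_rel (y : N) {σ : Field E N} {X : Field E M} (h : ∀ᶠ z in 𝓝 y, σ z = pull φ X z) :
    ∀ᶠ x in 𝓝 (φ y), push hφ y σ x = X x := by
  filter_upwards [push_congr hφ y h, push_pull hφ y X] with x h1 h2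
  rw [h1, h2]

theorem Md.push {y : N} {σ : Field E N} (h : Md σ y) : Md (push hφ y σ) (φ y) :=
  Md.pull (sec_ld hφ y).self_of_nhds (by rwa [sec_self])

theorem dm_eq_push (y : N) (σ : Field E N) : dm E φ y (σ y) = push hφ y σ (φ y) := by
  rw [← (pull_push hφ y σ).self_of_nhds, dm_pull (hφ y)]

include hφ in
/-- a field which is smooth near `y` comes from a global smooth field near `y` -/
theorem exists_rel [T2Space M] {y : N} {σ : Field E N} (h : ∀ᶠ z in 𝓝 y, Sm σ z) :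
    ∃ X : SmoothField E M, ∀ᶠ z in 𝓝 y, σ z = pull φ X z := by
  have h1 : ∀ᶠ x in 𝓝 (φ y), Sm (push hφ y σ) x := by
    filter_upwards [sec_ld hφ y, (tendsto_sec hφ y).eventually h] with x hx hx'
    exact Sm.pull hx hx'
  obtain ⟨X, hX⟩ := cut_section (E := E) h1 (σ := push hφ y σ)
    (fun x hx => ContMDiffAt.contMDiffWithinAt hx)
  refine ⟨X, ?_⟩
  filter_upwards [pull_push hφ y σ, (tendsto_pi hφ y).eventually hX] with z h2 h3
  rw [← h2]
  change (dm E φ z).inverse (push hφ y σ (φ z)) = (dm E φ z).inverse (X (φ z))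
  rw [h3]

/-! ### smoothness of fields of linear maps -/

theorem contMDiffAt_clm_of_apply {F : Type} [NormedAddCommGroup F] [NormedSpace ℝ F]
    {f : N → E →L[ℝ] F} {y : N} (h : ∀ v, ContMDiffAt 𝓘(ℝ, E) 𝓘(ℝ, F) ∞ (fun z => f z v) y) :
    ContMDiffAt 𝓘(ℝ, E) 𝓘(ℝ, E →L[ℝ] F) ∞ f y := by
  let d := Module.finrank ℝ E
  have hd : d = Module.finrank ℝ (Fin d → ℝ) := (Module.finrank_fin_fun ℝ).symm
  let e₁ := ContinuousLinearEquiv.ofFinrankEq hd
  let e₂ := (e₁.arrowCongr (1 : F ≃L[ℝ] F)).trans (ContinuousLinearEquiv.piRing (Fin d))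
  rw [← Function.id_comp f, ← e₂.symm_comp_self]
  exact e₂.symm.contDiff.contMDiff.contMDiffAt.comp y (contMDiffAt_pi_space.mpr fun i => h _)

/-- the constant fields of the trivialization at `y` -/
theorem exists_const_field [T2Space N] (y : N) (v : E) : ∃ S : SmoothField E N, ∀ᶠ z in 𝓝 y,
    S z = (trivializationAt E (TangentSpace 𝓘(ℝ, E) : N → Type) y).symmL ℝ z v := by
  let e := trivializationAt E (TangentSpace 𝓘(ℝ, E) : N → Type) y
  have hy : y ∈ e.baseSet := FiberBundle.mem_baseSet_trivializationAt' y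
  refine cut_section (E := E) (e.open_baseSet.mem_nhds hy) (σ := fun z => e.symmL ℝ z v) ?_
  rw [e.contMDiffOn_section_baseSet_iff]
  refine (contMDiffOn_const (c := v)).congr fun z hz => ?_
  have h := e.continuousLinearMapAt_symmL (R := ℝ) hz v
  rwa [e.continuousLinearMapAt_apply ℝ, e.coe_linearMapAt_of_mem hz] at h

end

end Vale.Agent.P211Z
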