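import Vale.Agent.P211Z.Pull1

/-! The pullback of a connection along a local isometry. -/

set_option maxSynthPendingDepth 3
set_option linter.unusedSectionVars false

namespace Vale.Agent.P211Z

open scoped Manifold ContDiff Topology
open Bundle Filter VectorField Vale.Agent.P211 Vale.Agent.P211.NN

noncomputable section

variable {E : Type} [NormedAddCommGroup E] [NormedSpace ℝ E] [FiniteDimensional ℝ E]
  {M : Type} [TopologicalSpace M] [ChartedSpace E M] [IsManifold 𝓘(ℝ, E) ∞ M] [T2Space M]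
  [RiemannianBundle fun p : M => TangentSpace 𝓘(ℝ, E) p]
  [IsContMDiffRiemannianBundle 𝓘(ℝ, E) ∞ E fun p : M => TangentSpace 𝓘(ℝ, E) p]
  {N : Type} [TopologicalSpace N] [ChartedSpace E N] [IsManifold 𝓘(ℝ, E) ∞ N] [T2Space N]
  [RiemannianBundle fun p : N => TangentSpace 𝓘(ℝ, E) p]
  [IsContMDiffRiemannianBundle 𝓘(ℝ, E) ∞ E fun p : N => TangentSpace 𝓘(ℝ, E) p]
  {φ : N → M} (hφ : IsLocalDiffeomorph 𝓘(ℝ, E) 𝓘(ℝ, E) ∞ φ)
  (cov : CovariantDerivative 𝓘(ℝ, E) E (TangentSpace 𝓘(ℝ, E) : M → Type))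

/-- the pulled back connection, as a function -/
def pcovF (σ : Field E N) (y : N) : TangentSpace 𝓘(ℝ, E) y →L[ℝ] TangentSpace 𝓘(ℝ, E) y :=
  (dm E φ y).inverse ∘L cov (push hφ y σ) (φ y) ∘L dm E φ y

theorem dm_pcovF (σ : Field E N) (y : N) (v : TangentSpace 𝓘(ℝ, E) y) :
    dm E φ y (pcovF hφ cov σ y v) = cov (push hφ y σ) (φ y) (dm E φ y v) :=
  (inv_of_ld (hφ y)).self_apply_inverse _

theorem mvfderiv_sec {g : N → ℝ} {y : N} (hg : MDifferentiableAt 𝓘(ℝ, E) 𝓘(ℝ) g y)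
    (v : TangentSpace 𝓘(ℝ, E) y) :
    MDifferentiableAt 𝓘(ℝ, E) 𝓘(ℝ) (g ∘ sec hφ y) (φ y) ∧
      mvfderiv 𝓘(ℝ, E) (g ∘ sec hφ y) (φ y) (dm E φ y v) = mvfderiv 𝓘(ℝ, E) g y v := by
  have h1 : MDifferentiableAt 𝓘(ℝ, E) 𝓘(ℝ) (g ∘ sec hφ y) (φ y) :=
    MDifferentiableAt.comp (φ y) (by rwa [sec_self])
      ((sec_ld hφ y).self_of_nhds.mdifferentiableAt (by simp))
  refine ⟨h1, ?_⟩
  rw [← mvfderiv_comp_apply y h1 ((hφ y).mdifferentiableAt (by simp))]
  have h2 : (g ∘ sec hφ y) ∘ φ =ᶠ[𝓝 y] g := by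
    filter_upwards [(hφ y).localInverse_eventuallyEq_left] with z hz
    exact congrArg g hz
  rw [mvfderiv, mvfderiv, h2.mfderiv_eq, h2.eq_of_nhds]

/-- the pulled back connection -/
def pcov : CovariantDerivative 𝓘(ℝ, E) E (TangentSpace 𝓘(ℝ, E) : N → Type) where
  toFun := pcovF hφ cov
  isCovariantDerivativeOnUniv :=
    { add := fun {σ σ' y} hσ hσ' _ => by
        ext v
        refine (inv_of_ld (hφ y)).injective ?_
        have e : push hφ y (σ + σ') = push hφ y σ + push hφ y σ' := mpullback_add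
        rw [add_apply, map_add, dm_pcovF, dm_pcovF, dm_pcovF, e,
          cov.isCovariantDerivativeOnUniv.add (Md.push hφ hσ) (Md.push hφ hσ')]
        rfl
      leibniz := fun {σ g y} hσ hg _ => by
        ext v
        refine (inv_of_ld (hφ y)).injective ?_
        have e : push hφ y (g • σ) = (g ∘ sec hφ y) • push hφ y σ := mpullback_smul
        obtain ⟨h1, h2⟩ := mvfderiv_sec hφ hg v
        rw [add_apply, map_add, smul_apply, map_smul,
          dm_pcovF, dm_pcovF, e, cov.isCovariantDerivativeOnUniv.leibniz (Md.push hφ hσ) h1,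
          add_apply, smul_apply,
          ContinuousLinearMap.smulRight_apply, ContinuousLinearMap.smulRight_apply, map_smul, h2,
          dm_eq_push hφ, Function.comp_apply, sec_self] }

theorem pcov_rel {y : N} {σ : Field E N} {X : Field E M} (hX : Md X (φ y))
    (h : ∀ᶠ z in 𝓝 y, σ z = pull φ X z) (v : TangentSpace 𝓘(ℝ, E) y) :
    dm E φ y (pcov hφ cov σ y v) = cov X (φ y) (dm E φ y v) := by
  have hσ : Md σ y := (Md.pull (hφ y) hX).congr h
  have h1 : cov (push hφ y σ) (φ y) = cov X (φ y) :=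
    cov.isCovariantDerivativeOnUniv.congr_of_eventuallyEq (Md.push hφ hσ) hX univ_mem
      (push_of_rel hφ y h)
  rw [← h1]
  exact dm_pcovF hφ cov σ y v

theorem pcov_rel' {y : N} {σ τ : Field E N} {X Y : Field E M} (hX : ∀ᶠ z in 𝓝 y, Md X (φ z))
    (h : ∀ᶠ z in 𝓝 y, σ z = pull φ X z) (h' : ∀ᶠ z in 𝓝 y, τ z = pull φ Y z) :
    ∀ᶠ z in 𝓝 y, pcov hφ cov σ z (τ z) = pull φ (fun x => cov X x (Y x)) z := by
  filter_upwards [hX, h.eventually_nhds, h'] with z h1 h2 h3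
  refine (inv_of_ld (hφ z)).injective ?_
  rw [pcov_rel hφ cov h1 h2, h3, dm_pull (hφ z), dm_pull (hφ z)]

theorem pcov_torsion (ht : cov.torsion = 0) : (pcov hφ cov).torsion = 0 := by
  rw [CovariantDerivative.torsion_eq_zero_iff] at ht ⊢
  intro X Y y hX hY
  have hX' := Md.push hφ hX
  have hY' := Md.push hφ hY
  have eX : ∀ᶠ z in 𝓝 y, X z = pull φ (push hφ y X) z := (pull_push hφ y X).mono fun _ h => h.symm
  have eY : ∀ᶠ z in 𝓝 y, Y z = pull φ (push hφ y Y) z := (pull_push hφ y Y).mono fun _ h => h.symm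
  refine (inv_of_ld (hφ y)).injective ?_
  rw [map_sub, pcov_rel hφ cov hY' eY, pcov_rel hφ cov hX' eX, dm_eq_push hφ, dm_eq_push hφ,
    ht hX' hY', Filter.EventuallyEq.mlieBracket_vectorField_eq eX eY,
    pull_bracket (hφ y) hX' hY', dm_pull (hφ y)]

theorem pcov_metric
    (hi : ∀ (y : N) (v w : TangentSpace 𝓘(ℝ, E) y),
      inner ℝ (dm E φ y v) (dm E φ y w) = inner ℝ v w)
    (hm : CovariantDerivative.IsMetricCompatible (V := (TangentSpace 𝓘(ℝ, E) : M → Type)) cov) :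
    CovariantDerivative.IsMetricCompatible (V := (TangentSpace 𝓘(ℝ, E) : N → Type))
      (pcov hφ cov) := by
  rw [CovariantDerivative.isMetricCompatible_iff]
  intro y X σ τ _ hσ hτ
  have hσ' := Md.push hφ hσ
  have hτ' := Md.push hφ hτ
  have eσ : ∀ᶠ z in 𝓝 y, σ z = pull φ (push hφ y σ) z := (pull_push hφ y σ).mono fun _ h => h.symm
  have eτ : ∀ᶠ z in 𝓝 y, τ z = pull φ (push hφ y τ) z := (pull_push hφ y τ).mono fun _ h => h.symm
  have h1 := hm.mvfderiv_inner_eq (push hφ y X) hσ' hτ'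
  have h2 : (fun z => inner ℝ (σ z) (τ z)) =ᶠ[𝓝 y]
      (fun x => inner ℝ (push hφ y σ x) (push hφ y τ x)) ∘ φ := by
    filter_upwards [eσ, eτ] with z h3 h4
    rw [h3, h4, ← hi, dm_pull (hφ z), dm_pull (hφ z)]
    rfl
  have h3 : mvfderiv 𝓘(ℝ, E) (fun z => inner ℝ (σ z) (τ z)) y (X y)
      = mvfderiv 𝓘(ℝ, E) ((fun x => inner ℝ (push hφ y σ x) (push hφ y τ x)) ∘ φ) y (X y) := by
    rw [mvfderiv, mvfderiv, h2.mfderiv_eq, h2.eq_of_nhds]
  have h4 : MDifferentiableAt 𝓘(ℝ, E) 𝓘(ℝ) (fun x => inner ℝ (push hφ y σ x) (push hφ y τ x))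
      (φ y) := MDifferentiableAt.inner_bundle (F := E)
        (E := fun p : M => TangentSpace 𝓘(ℝ, E) p) hσ' hτ'
  rw [h3, mvfderiv_comp_apply y h4 ((hφ y).mdifferentiableAt (by simp))]
  change mvfderiv 𝓘(ℝ, E) _ (φ y) (dm E φ y (X y)) = inner ℝ (pcov hφ cov σ y (X y)) (τ y)
    + inner ℝ (σ y) (pcov hφ cov τ y (X y))
  rw [← hi, ← hi y (σ y), pcov_rel hφ cov hσ' eσ, pcov_rel hφ cov hτ' eτ, dm_eq_push hφ,
    dm_eq_push hφ, dm_eq_push hφ]
  exact h1

theorem pcov_smooth (hs : cov.ContMDiffCovariantDerivative ∞) :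
    (pcov hφ cov).ContMDiffCovariantDerivative ∞ := by
  refine ⟨⟨fun {σ} hσ y _ => ContMDiffAt.contMDiffWithinAt ?_⟩⟩
  have hσ' : ∀ z, Sm σ z := fun z =>
    ((hσ z (Set.mem_univ z)).contMDiffAt univ_mem).of_le (by simp)
  obtain ⟨X, hX⟩ := exists_rel hφ (y := y) (Eventually.of_forall hσ')
  rw [contMDiffAt_hom_bundle]
  refine ⟨contMDiffAt_id, contMDiffAt_clm_of_apply fun v => ?_⟩
  obtain ⟨S, hS⟩ := exists_const_field (E := E) y v
  obtain ⟨Y, hY⟩ := exists_rel hφ (y := y) (σ := S) (Eventually.of_forall fun z => S.contMDiff z)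
  have h1 := pcov_rel' hφ cov (Eventually.of_forall fun z => VF.mdiff X (φ z)) hX hY
  have h2 : Sm (fun z => pcov hφ cov σ z (S z)) y :=
    (Sm.pull (hφ y) ((nabVF cov hs Y X).contMDiff (φ y))).congr h1
  have h3 := (contMDiffAt_totalSpace.mp h2).2
  refine h3.congr_of_eventuallyEq ?_
  let e := trivializationAt E (TangentSpace 𝓘(ℝ, E) : N → Type) y
  filter_upwards [hS, e.open_baseSet.mem_nhds (FiberBundle.mem_baseSet_trivializationAt' y)]
    with z hz hz'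
  change e.continuousLinearMapAt ℝ z (pcov hφ cov σ z (e.symmL ℝ z v)) = _
  rw [← hz, e.continuousLinearMapAt_apply ℝ, e.coe_linearMapAt_of_mem hz']

/-- naturality of the curvature -/
theorem Rm_pcov (hs : cov.ContMDiffCovariantDerivative ∞)
    (hi : ∀ (y : N) (v w : TangentSpace 𝓘(ℝ, E) y),
      inner ℝ (dm E φ y v) (dm E φ y w) = inner ℝ v w)
    {y : N} {X' Y' Z' W' : Field E N} {X Y Z W : SmoothField E M}
    (hX : ∀ᶠ z in 𝓝 y, X' z = pull φ X z) (hY : ∀ᶠ z in 𝓝 y, Y' z = pull φ Y z)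
    (hZ : ∀ᶠ z in 𝓝 y, Z' z = pull φ Z z) (hW : ∀ᶠ z in 𝓝 y, W' z = pull φ W z) :
    Rm (pcov hφ cov) X' Y' Z' W' y = Rm cov X Y Z W (φ y) := by
  have hZ' : ∀ᶠ z in 𝓝 y, Md Z (φ z) := Eventually.of_forall fun z => VF.mdiff Z (φ z)
  have h1 := pcov_rel' hφ cov hZ' hZ hY
  have h2 := pcov_rel' hφ cov hZ' hZ hX
  unfold Rm
  rw [← hi, map_sub, map_sub, pcov_rel hφ cov (VF.mdiff (nabVF cov hs Y Z) (φ y)) h1,
    pcov_rel hφ cov (VF.mdiff (nabVF cov hs X Z) (φ y)) h2, pcov_rel hφ cov hZ'.self_of_nhds hZ,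
    Filter.EventuallyEq.mlieBracket_vectorField_eq hX hY,
    pull_bracket (hφ y) (VF.mdiff X _) (VF.mdiff Y _), hX.self_of_nhds, hY.self_of_nhds,
    hW.self_of_nhds, dm_pull (hφ y), dm_pull (hφ y), dm_pull (hφ y), dm_pull (hφ y)]
  rfl

variable (hs : cov.ContMDiffCovariantDerivative ∞)
  (hi : ∀ (y : N) (v w : TangentSpace 𝓘(ℝ, E) y), inner ℝ (dm E φ y v) (dm E φ y w) = inner ℝ v w)

include hφ in
theorem exists_rel' (X : SmoothField E N) (y : N) :
    ∃ X₀ : SmoothField E M, ∀ᶠ z in 𝓝 y, X z = pull φ X₀ z :=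
  exists_rel hφ (Eventually.of_forall fun z => X.contMDiff z)

include hs hi in
theorem pcov_secNonneg (hK : SecNonneg cov) : SecNonneg (pcov hφ cov) := by
  intro y X Y
  obtain ⟨X₀, hX⟩ := exists_rel' hφ X y
  obtain ⟨Y₀, hY⟩ := exists_rel' hφ Y y
  rw [Rm_pcov hφ cov hs hi hX hY hY hX]
  exact hK _ _ _

include hφ hi in
theorem inner_rel {y : N} {X Y : Field E N} {X₀ Y₀ : Field E M}
    (hX : X y = pull φ X₀ y) (hY : Y y = pull φ Y₀ y) :
    inner ℝ (X y) (Y y) = inner ℝ (X₀ (φ y)) (Y₀ (φ y)) := by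
  rw [hX, hY, ← hi, dm_pull (hφ y), dm_pull (hφ y)]

include hs hi in
theorem pcov_ricciEq {lam : ℝ} (hR : RicciEq cov fun _ => lam) :
    RicciEq (pcov hφ cov) fun _ => lam := by
  intro y F hF Y Z
  choose F₀ hF₀ using fun i => exists_rel' hφ (F i) y
  obtain ⟨Y₀, hY⟩ := exists_rel' hφ Y y
  obtain ⟨Z₀, hZ⟩ := exists_rel' hφ Z y
  have h1 : OrthonormalAt F₀ (φ y) := by
    unfold OrthonormalAt at hF ⊢
    rw [orthonormal_iff_ite] at hF ⊢
    intro i j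
    rw [← hF i j]
    exact (inner_rel hφ hi (hF₀ i).self_of_nhds (hF₀ j).self_of_nhds).symm
  rw [inner_rel hφ hi hY.self_of_nhds hZ.self_of_nhds, ← hR (φ y) F₀ h1 Y₀ Z₀]
  exact Finset.sum_congr rfl fun i _ => Rm_pcov hφ cov hs hi (hF₀ i) hY hZ (hF₀ i)

include hs hi in
theorem pcov_secPos {y : N}
    (hP : ∀ X Y : SmoothField E M, LinearIndependent ℝ ![X (φ y), Y (φ y)] →
      0 < Rm cov X Y Y X (φ y))
    (X Y : SmoothField E N) (h : LinearIndependent ℝ ![X y, Y y]) :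
    0 < Rm (pcov hφ cov) X Y Y X y := by
  obtain ⟨X₀, hX⟩ := exists_rel' hφ X y
  obtain ⟨Y₀, hY⟩ := exists_rel' hφ Y y
  rw [Rm_pcov hφ cov hs hi hX hY hY hX]
  refine hP _ _ ?_
  have h1 := h.map' (dm E φ y).toLinearMap
    (LinearMap.ker_eq_bot.mpr (inv_of_ld (hφ y)).injective)
  have e : (dm E φ y).toLinearMap ∘ ![X y, Y y] = ![X₀ (φ y), Y₀ (φ y)] := by
    funext i
    fin_cases i
    · change dm E φ y (X y) = X₀ (φ y)
      rw [hX.self_of_nhds, dm_pull (hφ y)]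
    · change dm E φ y (Y y) = Y₀ (φ y)
      rw [hY.self_of_nhds, dm_pull (hφ y)]
  rwa [e] at h1

end

end Vale.Agent.P211Z
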