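import Vale.Agent.P211Z.Deck
import Vale.Agent.P211.HK.ISODefs
import Mathlib.LinearAlgebra.Matrix.ToLinearEquiv

/-! Quotients of the round four-sphere. -/

namespace Vale.Agent.P211Z

open Matrix Vale.Agent.P211.HK

theorem exists_fixed_of_odd {K : Type} [Field K] [CharZero K] {n : ℕ} (hn : Odd n)
    {U V : Matrix (Fin n) (Fin n) K} (h : U * Vᵀ = 1) :
    ∃ v : Fin n → K, v ≠ 0 ∧ U *ᵥ (V *ᵥ v) = v := by
  have h1 : (V - Vᵀ).det = 0 := by
    have h2 : (V - Vᵀ)ᵀ = -(V - Vᵀ) := by simp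
    have h3 := Matrix.det_transpose (V - Vᵀ)
    rw [h2, Matrix.det_neg, Fintype.card_fin, hn.neg_one_pow] at h3
    linear_combination (-1 / 2 : K) * h3
  have h4 : (U * V - 1).det = 0 := by
    rw [← h, ← Matrix.mul_sub, Matrix.det_mul, h1, mul_zero]
  obtain ⟨v, hv, h5⟩ := Matrix.exists_mulVec_eq_zero_iff.mpr h4
  refine ⟨v, hv, ?_⟩
  rw [Matrix.sub_mulVec, Matrix.one_mulVec, sub_eq_zero] at h5
  rw [Matrix.mulVec_mulVec, h5]

section

variable {N : Type} [MetricSpace N] {r : ℝ} {Z : N → EuclideanSpace ℝ (Fin 5)}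

omit [MetricSpace N] in
theorem inner_mem (h1 : ∀ x, ‖Z x‖ = 1) (x y : N) :
    inner ℝ (Z x) (Z y) ∈ Set.Icc (-1 : ℝ) 1 := by
  have h := abs_real_inner_le_norm (Z x) (Z y)
  rw [h1, h1, mul_one] at h
  exact abs_le.mp h

theorem sph_inj (h1 : ∀ x, ‖Z x‖ = 1)
    (h2 : ∀ x y, dist x y = r * Real.arccos (inner ℝ (Z x) (Z y))) {x y : N} (h : Z x = Z y) :
    x = y := by
  rw [← dist_eq_zero, h2, h, real_inner_self_eq_norm_sq, h1]
  simp

theorem sph_matrix (hr : 0 < r) (h1 : ∀ x, ‖Z x‖ = 1)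
    (h2 : ∀ x y, dist x y = r * Real.arccos (inner ℝ (Z x) (Z y)))
    (h3 : ∀ z : EuclideanSpace ℝ (Fin 5), ‖z‖ = 1 → ∃ x, Z x = z) {γ : N → N}
    (hγ : Isometry γ) : ∃ A : Matrix (Fin 5) (Fin 5) ℝ, A * Aᵀ = 1 ∧
      ∀ x, (Z (γ x)).ofLp = A *ᵥ (Z x).ofLp := by
  have hi : ∀ x y, inner ℝ (Z (γ x)) (Z (γ y)) = inner ℝ (Z x) (Z y) := by
    intro x y
    have h := hγ.dist_eq x y
    rw [h2, h2] at h
    exact Real.arccos_injOn (inner_mem h1 _ _) (inner_mem h1 _ _) (mul_left_cancel₀ hr.ne' h)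
  choose b hb using fun i : Fin 5 => h3 (EuclideanSpace.single i 1) (by simp)
  let A : Matrix (Fin 5) (Fin 5) ℝ := Matrix.of fun i j => Z (γ (b j)) i
  have key : ∀ x, Aᵀ *ᵥ (Z (γ x)).ofLp = (Z x).ofLp := by
    intro x
    funext j
    have h := hi x (b j)
    rw [hb j, EuclideanSpace.inner_single_right] at h
    simp only [conj_trivial, one_mul] at h
    rw [← h]
    simp [A, Matrix.mulVec, dotProduct, PiLp.inner_apply]
  have hA : Aᵀ * A = 1 := by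
    ext j k
    have h := congrFun (key (b k)) j
    rw [hb k] at h
    simp only [Matrix.mul_apply, Matrix.one_apply]
    simpa [A, Matrix.mulVec, dotProduct, Pi.single_apply] using h
  have hA' : A * Aᵀ = 1 := mul_eq_one_comm.mp hA
  refine ⟨A, hA', fun x => ?_⟩
  rw [← key x, Matrix.mulVec_mulVec, hA', Matrix.one_mulVec]

theorem sph_fixed (h1 : ∀ x, ‖Z x‖ = 1)
    (h2 : ∀ x y, dist x y = r * Real.arccos (inner ℝ (Z x) (Z y)))
    (h3 : ∀ z : EuclideanSpace ℝ (Fin 5), ‖z‖ = 1 → ∃ x, Z x = z) {γ : N → N}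
    {A : Matrix (Fin 5) (Fin 5) ℝ} (hA : ∀ x, (Z (γ x)).ofLp = A *ᵥ (Z x).ofLp)
    {v : Fin 5 → ℝ} (hv : v ≠ 0) (h : A *ᵥ v = v) : ∃ x, γ x = x := by
  let w : EuclideanSpace ℝ (Fin 5) := WithLp.toLp 2 v
  have hw : w ≠ 0 := fun h0 => hv (congrArg WithLp.ofLp h0)
  obtain ⟨x, hx⟩ := h3 (‖w‖⁻¹ • w) (norm_smul_inv_norm hw)
  refine ⟨x, sph_inj h1 h2 (WithLp.ofLp_injective 2 ?_)⟩
  rw [hA, hx]
  change A *ᵥ (‖w‖⁻¹ • v) = ‖w‖⁻¹ • v
  rw [Matrix.mulVec_smul, h]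

variable {M : Type} [MetricSpace M] {φ : N → M}

theorem sph_fibre (hφ : MetricCover φ) (hr : 0 < r) (h1 : ∀ x, ‖Z x‖ = 1)
    (h2 : ∀ x y, dist x y = r * Real.arccos (inner ℝ (Z x) (Z y)))
    (h3 : ∀ z : EuclideanSpace ℝ (Fin 5), ‖z‖ = 1 → ∃ x, Z x = z) {γ : N → N}
    (hγ : Isometry γ) (hφγ : φ ∘ γ = φ) : γ = id ∨ ∀ x, Z (γ x) = -Z x := by
  obtain ⟨A, hA, hZ⟩ := sph_matrix hr h1 h2 h3 hγ
  obtain ⟨v, hv, hAv⟩ := exists_fixed_of_odd (by decide : Odd 5) hA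
  obtain ⟨x₀, hx₀⟩ := sph_fixed h1 h2 h3 (γ := γ ∘ γ) (A := A * A)
    (fun x => by rw [Function.comp_apply, hZ, hZ, Matrix.mulVec_mulVec]) hv
    (by rw [← Matrix.mulVec_mulVec, hAv])
  have hsq : γ ∘ γ = id := hφ.rigid _ (hγ.continuous.comp hγ.continuous)
    (by rw [← Function.comp_assoc, hφγ, hφγ]) x₀ hx₀
  by_cases h : ∀ x, Z (γ x) = -Z x
  · exact Or.inr h
  · left
    push Not at h
    obtain ⟨x, hx⟩ := h
    have hne : (Z x).ofLp + (Z (γ x)).ofLp ≠ 0 := by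
      intro h0
      apply hx
      apply WithLp.ofLp_injective 2
      rw [WithLp.ofLp_neg]
      exact eq_neg_of_add_eq_zero_right h0
    obtain ⟨y, hy⟩ := sph_fixed h1 h2 h3 hZ hne (by
      rw [Matrix.mulVec_add, ← hZ, ← hZ, show γ (γ x) = x from congrFun hsq x, add_comm])
    exact hφ.rigid γ hγ.continuous hφγ y hy

theorem quotient_S4 (hφ : MetricCover φ) (hr : 0 < r) (h : IsRoundS4 N r) :
    IsRoundS4 M r ∨ IsRoundRP4 M r := by
  obtain ⟨Z, h1, h2, h3⟩ := h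
  have hs := Function.surjInv_eq hφ.surj
  by_cases hi : Function.Injective φ
  · left
    refine ⟨Z ∘ Function.surjInv hφ.surj, fun x => h1 _, fun x y => ?_, fun z hz => ?_⟩
    · rw [Function.comp_apply, Function.comp_apply, ← h2, ← hφ.dist_eq_of_injective hi, hs, hs]
    · obtain ⟨a, ha⟩ := h3 z hz
      exact ⟨φ a, by rw [Function.comp_apply, hi (hs (φ a)), ha]⟩
  · right
    have hfib : ∀ a b, φ a = φ b → Z b = Z a ∨ Z b = -Z a := by
      intro a b hab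
      obtain ⟨γ, hγ, hφγ, rfl⟩ := hφ.deck a b hab
      rcases sph_fibre hφ hr h1 h2 h3 hγ hφγ with h | h
      · left; rw [h]; rfl
      · exact Or.inr (h a)
    obtain ⟨γ, hφγ, hγ⟩ : ∃ γ : N → N, φ ∘ γ = φ ∧ ∀ x, Z (γ x) = -Z x := by
      obtain ⟨a, b, hab, hne⟩ := Function.not_injective_iff.mp hi
      obtain ⟨γ, hγ, hφγ, rfl⟩ := hφ.deck a b hab
      rcases sph_fibre hφ hr h1 h2 h3 hγ hφγ with h | h
      · exact absurd (by rw [h]; rfl) hne
      · exact ⟨γ, hφγ, h⟩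
    have hd : ∀ a b, dist (φ a) (φ b) = r * Real.arccos |inner ℝ (Z a) (Z b)| := by
      intro a b
      refine le_antisymm ?_ (le_of_forall_gt fun s hs => ?_)
      · rcases abs_choice (inner ℝ (Z a) (Z b) : ℝ) with h | h
        · rw [h, ← h2]
          exact hφ.lip a b
        · rw [h, ← inner_neg_right, ← hγ, ← h2, ← show φ (γ b) = φ b from congrFun hφγ b]
          exact hφ.lip a (γ b)
      · obtain ⟨b', hb', hlt⟩ := hφ.lift a _ s hs
        refine lt_of_le_of_lt ?_ hlt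
        rw [h2]
        refine mul_le_mul_of_nonneg_left (Real.arccos_le_arccos ?_) hr.le
        rcases hfib b b' hb'.symm with h | h
        · rw [h]; exact le_abs_self _
        · rw [h, inner_neg_right]; exact neg_le_abs _
    refine ⟨Z ∘ Function.surjInv hφ.surj, fun x => h1 _, fun x y => ?_, fun z hz => ?_⟩
    · rw [Function.comp_apply, Function.comp_apply, ← hd, hs, hs]
    · obtain ⟨a, rfl⟩ := h3 z hz
      exact ⟨φ a, hfib a _ (hs (φ a)).symm⟩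

end

end Vale.Agent.P211Z
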