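import Vale.Agent.P211Z.Sphere
import Mathlib.LinearAlgebra.Eigenspace.Triangularizable
import Mathlib.Analysis.Complex.Polynomial.Basic

/-! Maps of `ℂ³` which preserve the moduli of scalar products have an invariant line. -/

namespace Vale.Agent.P211Z

open Matrix Complex
open scoped ComplexConjugate

/-- the scalar product -/
def ip (z w : Fin 3 → ℂ) : ℂ := ∑ i, conj (z i) * w i

theorem ip_eq (z w : Fin 3 → ℂ) : ip z w = star z ⬝ᵥ w := rfl

theorem ip_two {a : Fin 3 → ℂ} {j k : Fin 3} (hjk : j ≠ k) (h : ∀ l, l ≠ j → l ≠ k → a l = 0)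
    (w : Fin 3 → ℂ) : ip a w = conj (a j) * w j + conj (a k) * w k :=
  Fintype.sum_eq_add j k hjk fun l hl => by rw [h l hl.1 hl.2, map_zero, zero_mul]

theorem re_eq_of_norm {x y x' y' : ℂ} (hx : ‖x'‖ = ‖x‖) (hy : ‖y'‖ = ‖y‖)
    (h : ‖x' + y'‖ = ‖x + y‖) : (conj x' * y').re = (conj x * y).re := by
  have h1 := congrArg (· ^ 2) hx
  have h2 := congrArg (· ^ 2) hy
  have h3 := congrArg (· ^ 2) h
  simp only [Complex.sq_norm, Complex.normSq_apply, Complex.add_re, Complex.add_im] at h1 h2 h3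
  simp only [Complex.mul_re, Complex.conj_re, Complex.conj_im]
  linarith

section core

variable {S : (Fin 3 → ℂ) → Fin 3 → ℂ} (hS : ∀ z w, ‖ip (S z) (S w)‖ = ‖ip z w‖)
  (hm : ∀ z j, ‖S z j‖ = ‖z j‖) (hu : S (fun _ => 1) = fun _ => 1)

include hS hm in
theorem core_test {j k : Fin 3} (hjk : j ≠ k) (t s : ℂ) (ht : ‖t‖ = 1)
    (h : conj (S (Pi.single j 1 + Pi.single k t) j) * S (Pi.single j 1 + Pi.single k t) k = s)
    (z : Fin 3 → ℂ) : (conj (S z j) * (conj s * S z k)).re = (conj (z j) * (conj t * z k)).re := by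
  set p : Fin 3 → ℂ := Pi.single j 1 + Pi.single k t with hp
  have hpj : p j = 1 := by simp [hp, hjk]
  have hpk : p k = t := by simp [hp, hjk.symm]
  have hpl : ∀ l, l ≠ j → l ≠ k → p l = 0 := fun l h1 h2 => by simp [hp, h1, h2]
  have h1 : ‖S p j‖ = 1 := by rw [hm, hpj, norm_one]
  have h2 : ‖S p k‖ = 1 := by rw [hm, hpk, ht]
  have hs : ‖s‖ = 1 := by rw [← h, norm_mul, Complex.norm_conj, h1, h2, mul_one]
  have h3 := hS p z
  rw [ip_two hjk (fun l h1 h2 => norm_eq_zero.mp (by rw [hm, hpl l h1 h2, norm_zero])),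
    ip_two hjk hpl, hpj, hpk, map_one, one_mul] at h3
  have h4 : conj (S p j) * S p j = 1 := by
    rw [Complex.conj_mul', h1]; simp
  have h5 : conj (S p j) * S z j + conj (S p k) * S z k
      = conj (S p j) * (S z j + conj s * S z k) := by
    rw [← h, map_mul, Complex.conj_conj]
    linear_combination (-(conj (S p k)) * S z k) * h4
  rw [h5, norm_mul, Complex.norm_conj, h1, one_mul] at h3
  exact re_eq_of_norm (hm z j)
    (by rw [norm_mul, norm_mul, Complex.norm_conj, Complex.norm_conj, hs, ht, hm]) h3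

include hS hm hu in
theorem core_re {j k : Fin 3} (hjk : j ≠ k) (z : Fin 3 → ℂ) :
    (conj (S z j) * S z k).re = (conj (z j) * z k).re := by
  have key : conj (S (Pi.single j 1 + Pi.single k 1) j) * S (Pi.single j 1 + Pi.single k 1) k
      = 1 := by
    set p : Fin 3 → ℂ := Pi.single j 1 + Pi.single k 1 with hp
    have hpj : p j = 1 := by simp [hp, hjk]
    have hpk : p k = 1 := by simp [hp, hjk.symm]
    have hpl : ∀ l, l ≠ j → l ≠ k → p l = 0 := fun l h1 h2 => by simp [hp, h1, h2]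
    have h3 := hS p (fun _ => 1)
    rw [hu, ip_two hjk (fun l h1 h2 => norm_eq_zero.mp (by rw [hm, hpl l h1 h2, norm_zero])),
      ip_two hjk hpl, mul_one, mul_one, mul_one, mul_one, ← map_add, ← map_add, Complex.norm_conj,
      Complex.norm_conj] at h3
    have h4 := re_eq_of_norm (hm p j) (hm p k) h3
    rw [hpj, hpk] at h4
    have h5 : ‖conj (S p j) * S p k‖ = 1 := by
      rw [norm_mul, Complex.norm_conj, hm, hm, hpj, hpk, norm_one, mul_one]
    have h6 := congrArg (· ^ 2) h5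
    simp only [Complex.sq_norm, Complex.normSq_apply] at h6
    have h7 : (conj (S p j) * S p k).re = 1 := by simpa using h4
    refine Complex.ext h7 ?_
    rw [h7] at h6
    have : (conj (S p j) * S p k).im ^ 2 = 0 := by linarith
    simpa using this
  simpa using core_test hS hm hjk 1 1 norm_one key z

include hS hm hu in
theorem core_pair {j k : Fin 3} (hjk : j ≠ k) :
    (∀ z, conj (S z j) * S z k = conj (z j) * z k) ∨
      ∀ z, conj (S z j) * S z k = z j * conj (z k) := by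
  set p : Fin 3 → ℂ := Pi.single j 1 + Pi.single k I with hp
  have hpj : p j = 1 := by simp [hp, hjk]
  have hpk : p k = I := by simp [hp, hjk.symm]
  have h1 : (conj (S p j) * S p k).re = 0 := by
    rw [core_re hS hm hu hjk, hpj, hpk]; simp
  have h5 : ‖conj (S p j) * S p k‖ = 1 := by
    rw [norm_mul, Complex.norm_conj, hm, hm, hpj, hpk, norm_one, norm_I, mul_one]
  have h6 := congrArg (· ^ 2) h5
  simp only [Complex.sq_norm, Complex.normSq_apply, h1] at h6
  have h7 : (conj (S p j) * S p k).im = 1 ∨ (conj (S p j) * S p k).im = -1 :=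
    mul_self_eq_one_iff.mp (by linarith)
  rcases h7 with h7 | h7
  · left
    intro z
    have h8 := core_test hS hm hjk I I norm_I (Complex.ext (by simpa using h1) (by simpa using h7)) z
    refine Complex.ext (core_re hS hm hu hjk z) ?_
    simp only [Complex.mul_re, Complex.mul_im, Complex.conj_re, Complex.conj_im, Complex.I_re,
      Complex.I_im] at h8 ⊢
    linarith
  · right
    intro z
    have h8 := core_test hS hm hjk I (-I) norm_I
      (Complex.ext (by simpa using h1) (by simpa using h7)) z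
    have h9 := core_re hS hm hu hjk z
    refine Complex.ext ?_ ?_
    · rw [h9]; simp
    · simp only [Complex.mul_re, Complex.mul_im, Complex.conj_re, Complex.conj_im, Complex.I_re,
        Complex.I_im, Complex.neg_re, Complex.neg_im] at h8 ⊢
      linarith

theorem norm_of_gram {s z : Fin 3 → ℂ} (hd : ∀ j, ‖s j‖ = ‖z j‖)
    (h01 : conj (s 0) * s 1 = conj (z 0) * z 1) (h12 : conj (s 1) * s 2 = conj (z 1) * z 2)
    (h02 : conj (s 0) * s 2 = conj (z 0) * z 2) : ‖ip z s‖ = ‖ip z z‖ := by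
  have hd' : ∀ j, conj (s j) * s j = conj (z j) * z j := fun j => by
    rw [Complex.conj_mul', Complex.conj_mul', hd]
  have h10 := congrArg conj h01
  have h21 := congrArg conj h12
  have h20 := congrArg conj h02
  simp only [map_mul, Complex.conj_conj] at h10 h21 h20
  have key : conj (ip z s) * ip z s = ip z z * ip z z := by
    simp only [ip, Fin.sum_univ_three, map_add, map_mul, Complex.conj_conj]
    linear_combination (z 0 * conj (z 0)) * hd' 0 + (z 1 * conj (z 1)) * hd' 1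
      + (z 2 * conj (z 2)) * hd' 2 + (z 0 * conj (z 1)) * h01 + (z 1 * conj (z 2)) * h12
      + (z 0 * conj (z 2)) * h02 + (z 1 * conj (z 0)) * h10 + (z 2 * conj (z 1)) * h21
      + (z 2 * conj (z 0)) * h20
  have h := congrArg norm key
  rw [norm_mul, norm_mul, Complex.norm_conj] at h
  exact (mul_self_inj_of_nonneg (norm_nonneg _) (norm_nonneg _)).mp h

include hS hm hu in
theorem core_main : (∀ z, ‖ip z (S z)‖ = ‖ip z z‖) ∨
    ∀ z, ‖ip (star z) (S z)‖ = ‖ip (star z) (star z)‖ := by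
  have hid : ∀ z, (conj (S z 0) * S z 1) * (conj (S z 1) * S z 2)
      = ((‖z 1‖ : ℂ) ^ 2) * (conj (S z 0) * S z 2) := fun z => by
    rw [← hm z 1, ← Complex.conj_mul']; ring
  have ha := hid ![1, I, -1]
  have hb := hid ![1, 1, I]
  have hI : I ≠ -I := fun h => by
    have h1 := congrArg Complex.im h
    simp only [Complex.I_im, Complex.neg_im] at h1
    linarith
  have e2 : (![1, I, -1] : Fin 3 → ℂ) 2 = -1 := rfl
  rcases core_pair hS hm hu (by decide : (0 : Fin 3) ≠ 1) with h01 | h01 <;>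
  rcases core_pair hS hm hu (by decide : (1 : Fin 3) ≠ 2) with h12 | h12 <;>
  rcases core_pair hS hm hu (by decide : (0 : Fin 3) ≠ 2) with h02 | h02 <;>
  rw [h01, h12, h02] at ha hb
  · exact Or.inl fun z => norm_of_gram (hm z) (h01 z) (h12 z) (h02 z)
  · exact absurd (by simpa using hb) hI
  · rw [e2] at ha; norm_num at ha
  · rw [e2] at ha; norm_num at ha
  · rw [e2] at ha; norm_num at ha
  · rw [e2] at ha; norm_num at ha
  · exact absurd (by simpa using hb) hI.symm
  · refine Or.inr fun z => norm_of_gram (fun j => ?_) ?_ ?_ ?_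
    · rw [hm, Pi.star_apply, norm_star]
    · simpa using h01 z
    · simpa using h12 z
    · simpa using h02 z

end core

theorem ip_mulVec {F : Matrix (Fin 3) (Fin 3) ℂ} (hF : Fᴴ * F = 1) (z w : Fin 3 → ℂ) :
    ip (F *ᵥ z) (F *ᵥ w) = ip z w := by
  rw [ip_eq, ip_eq, star_mulVec, dotProduct_mulVec, vecMul_vecMul, hF, vecMul_one]

theorem ip_smul_left (c : ℂ) (z w : Fin 3 → ℂ) : ip (c • z) w = conj c * ip z w := by
  simp only [ip, Fin.sum_univ_three, Pi.smul_apply, smul_eq_mul, map_mul]; ring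

theorem ip_smul_right (c : ℂ) (z w : Fin 3 → ℂ) : ip z (c • w) = c * ip z w := by
  simp only [ip, Fin.sum_univ_three, Pi.smul_apply, smul_eq_mul]; ring

theorem ip_self (z : Fin 3 → ℂ) : ip z z = ((∑ i, ‖z i‖ ^ 2 : ℝ) : ℂ) := by
  simp only [ip, Complex.conj_mul']
  push_cast
  rfl

theorem norm_ip_self (z : Fin 3 → ℂ) : ‖ip z z‖ = ∑ i, ‖z i‖ ^ 2 := by
  rw [ip_self, Complex.norm_real, Real.norm_of_nonneg (by positivity)]

theorem norm_ip_self_pos {z : Fin 3 → ℂ} (hz : z ≠ 0) : 0 < ‖ip z z‖ := by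
  rw [norm_ip_self]
  obtain ⟨i, hi⟩ := Function.ne_iff.mp hz
  exact Finset.sum_pos' (fun j _ => by positivity) ⟨i, Finset.mem_univ _, by positivity⟩

theorem wigner_fixed {T : (Fin 3 → ℂ) → Fin 3 → ℂ} (hT : ∀ z w, ‖ip (T z) (T w)‖ = ‖ip z w‖) :
    ∃ z : Fin 3 → ℂ, z ≠ 0 ∧ ‖ip z (T z)‖ = ‖ip z z‖ := by
  have he : ∀ (j : Fin 3) (w : Fin 3 → ℂ), ip (Pi.single j 1) w = w j := fun j w => by
    rw [ip, Fintype.sum_eq_single j fun l hl => by simp [hl]]; simp
  let α : Fin 3 → ℂ := fun j => ip (T (Pi.single j 1)) (T fun _ => 1)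
  have hα : ∀ j, ‖α j‖ = 1 := fun j => by simp only [α]; rw [hT, he, norm_one]
  let F : Matrix (Fin 3) (Fin 3) ℂ := Matrix.of fun i j => (α j • T (Pi.single j 1)) i
  have hFv : ∀ (w : Fin 3 → ℂ) j, (Fᴴ *ᵥ w) j = conj (α j) * ip (T (Pi.single j 1)) w := by
    intro w j
    rw [← ip_smul_left]
    rfl
  have hF : Fᴴ * F = 1 := by
    ext j k
    have h1 : (Fᴴ * F) j k = ip (α j • T (Pi.single j 1)) (α k • T (Pi.single k 1)) := rfl
    rw [h1, Matrix.one_apply]
    have h2 : ‖ip (α j • T (Pi.single j 1)) (α k • T (Pi.single k 1))‖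
        = ‖(Pi.single k (1 : ℂ) : Fin 3 → ℂ) j‖ := by
      rw [ip_smul_left, ip_smul_right, norm_mul, norm_mul, Complex.norm_conj, hα, hα, hT, he,
        one_mul, one_mul]
    split_ifs with hjk
    · subst hjk
      rw [norm_ip_self] at h2
      rw [ip_self, h2]
      simp
    · exact norm_eq_zero.mp (by rw [h2]; simp [hjk])
  have hF' : F * Fᴴ = 1 := mul_eq_one_comm.mp hF
  let S : (Fin 3 → ℂ) → Fin 3 → ℂ := fun z => Fᴴ *ᵥ T z
  have hFS : ∀ z, F *ᵥ S z = T z := fun z => by
    simp only [S]; rw [mulVec_mulVec, hF', one_mulVec]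
  have hS : ∀ z w, ‖ip (S z) (S w)‖ = ‖ip z w‖ := fun z w => by
    rw [← ip_mulVec hF, hFS, hFS, hT]
  have hm : ∀ z j, ‖S z j‖ = ‖z j‖ := fun z j => by
    simp only [S]; rw [hFv, norm_mul, Complex.norm_conj, hα, one_mul, hT, he]
  have hu : S (fun _ => 1) = fun _ => 1 := by
    funext j
    simp only [S]
    rw [hFv]
    change conj (α j) * α j = 1
    rw [Complex.conj_mul', hα]; simp
  have fin : ∀ (z y : Fin 3 → ℂ) (μ : ℂ), z ≠ 0 → F *ᵥ y = μ • z → ‖ip y y‖ = ‖ip z z‖ →
      ‖ip y (S z)‖ = ‖ip y y‖ → ‖ip z (T z)‖ = ‖ip z z‖ := by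
    intro z y μ hz h1 h2 h3
    have h4 : ‖μ‖ = 1 := by
      have h5 := congrArg norm (ip_mulVec hF y y)
      rw [h1, ip_smul_left, ip_smul_right, norm_mul, norm_mul, Complex.norm_conj, h2,
        ← mul_assoc] at h5
      have h6 : ‖μ‖ * ‖μ‖ = 1 * 1 :=
        mul_right_cancel₀ (norm_ip_self_pos hz).ne' (by rw [h5]; ring)
      exact (mul_self_inj_of_nonneg (norm_nonneg _) zero_le_one).mp h6
    rw [← ip_mulVec hF, hFS, h1, ip_smul_left, norm_mul, Complex.norm_conj, h4, one_mul] at h3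
    rw [h3, h2]
  rcases core_main hS hm hu with h | h
  · obtain ⟨μ, hμ⟩ := Module.End.exists_eigenvalue (Matrix.toLin' F)
    obtain ⟨z, hz⟩ := hμ.exists_hasEigenvector
    exact ⟨z, hz.2, fin z z μ hz.2 hz.apply_eq_smul rfl (h z)⟩
  · obtain ⟨v, hv, h1⟩ := exists_fixed_of_odd (by decide : Odd 3) (U := F) (V := F.map conj)
      (by rw [← hF']; rfl)
    have hst : ∀ w : Fin 3 → ℂ, star (F *ᵥ star w) = F.map conj *ᵥ w := fun w => by
      funext i
      simp [Matrix.mulVec, dotProduct]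
    have hn : ∀ z : Fin 3 → ℂ, ‖ip (star z) (star z)‖ = ‖ip z z‖ := fun z => by
      simp [norm_ip_self]
    by_cases h0 : v + F *ᵥ star v = 0
    · refine ⟨v, hv, fin v (star v) (-1) hv ?_ (hn v) (h v)⟩
      rw [neg_one_smul]
      exact eq_neg_of_add_eq_zero_right h0
    · refine ⟨_, h0, fin _ (star _) 1 h0 ?_ (hn _) (h _)⟩
      rw [one_smul, star_add, hst, mulVec_add, h1, add_comm]

end Vale.Agent.P211Z
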